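import Vale.Agent.P141.H8.Lab

/-!
# P141, line W, module REC: the total of a region is the sum over its windows
-/

namespace Vale.Agent.P141.H935

open Finset
open Vale.Agent.P141.H315 Vale.Agent.P141.PL.H318 Vale.Agent.P141.H347 Vale.Agent.P141.H8

noncomputable section

open scoped Classical

variable {X α : Type*} {g : Grid X} {gd ud : ℕ → X → Prop} {L : ℕ} {x : X} {tp : ℕ → X → ℕ}

theorem mem_cube_comm {i : ℕ} {y z : X} (h : y ∈ g.cube i z) : z ∈ g.cube i y := by
  rw [g.eq_of_mem i z y h]; exact g.mem i z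

/-- every cell of the region lies in exactly one window -/
theorem sum_win_one (h : Rgn g gd L x ud) (hl : Lab g L tp) (k : ℕ) (y : X) :
    ∑ i ∈ range (L + 1), ∑ z ∈ g.cube L x, (if ud i z ∧ tp i z = i then
      (cd g i z)⁻¹ * (if Wr g ud tp i z k y then (1 : ℝ) else 0) else 0) =
      if ud k y then 1 else 0 := by
  by_cases hu : ud k y
  · rw [if_pos hu]
    obtain ⟨hk, hy⟩ := h.bel k y hu
    have hge := hl.ge k hk y
    have hle := hl.le k hk y
    set i0 := tp k y with hi0
    have htp0 : tp i0 y = i0 := by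
      rw [hl.btw k hk y i0 hge (by rw [← hi0])]
    have hud0 : ud i0 y := h.up' hge hle hu
    have hsub : g.cube i0 y ⊆ g.cube L x := g.cube_subset hle hy
    rw [sum_eq_single i0]
    · have e1 : ∀ z ∈ g.cube L x, (if ud i0 z ∧ tp i0 z = i0 then
          (cd g i0 z)⁻¹ * (if Wr g ud tp i0 z k y then (1 : ℝ) else 0) else 0) =
          if z ∈ g.cube i0 y then (cd g i0 y)⁻¹ else 0 := by
        intro z _
        by_cases hz : z ∈ g.cube i0 y
        · have h1 : ud i0 z := (h.const i0 y z hz).2 hud0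
          have h2 : tp i0 z = i0 := by rw [hl.const i0 hle y z hz, htp0]
          have h3 : Wr g ud tp i0 z k y := ⟨hu, hge, mem_cube_comm hz, hi0.symm⟩
          rw [if_pos ⟨h1, h2⟩, if_pos h3, if_pos hz, mul_one]
          congr 1
          unfold cd
          rw [g.eq_of_mem i0 y z hz]
        · have h3 : ¬ Wr g ud tp i0 z k y := fun h4 => hz (mem_cube_comm h4.2.2.1)
          rw [if_neg h3, if_neg hz, mul_zero, ite_self]
      rw [sum_congr rfl e1, sum_ite_mem, inter_eq_right.2 hsub, sum_const, nsmul_eq_mul]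
      have hc : (0 : ℝ) < cd g i0 y := cd_pos g i0 y
      unfold cd at hc ⊢
      exact mul_inv_cancel₀ hc.ne'
    · intro i _ hne
      refine sum_eq_zero fun z _ => ?_
      have h3 : ¬ Wr g ud tp i z k y := fun h4 => hne (by rw [hi0]; exact h4.2.2.2.symm)
      rw [if_neg h3, mul_zero, ite_self]
    · intro h0
      exact absurd (mem_range.2 (by omega)) h0
  · rw [if_neg hu]
    refine sum_eq_zero fun i _ => sum_eq_zero fun z _ => ?_
    have h3 : ¬ Wr g ud tp i z k y := fun h4 => hu h4.1
    rw [if_neg h3, mul_zero, ite_self]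

/-- the sum over the windows, for a finite family of cells -/
theorem sum_items {β : Type*} (h : Rgn g gd L x ud) (hl : Lab g L tp) (s : Finset β) (kk : β → ℕ)
    (yy : β → X) (c : β → ℝ) :
    ∑ m ∈ s, (if ud (kk m) (yy m) then c m else 0) =
      ∑ i ∈ range (L + 1), ∑ z ∈ g.cube L x, (if ud i z ∧ tp i z = i then
        (cd g i z)⁻¹ * ∑ m ∈ s, (if Wr g ud tp i z (kk m) (yy m) then c m else 0) else 0) := by
  have e1 : ∀ m ∈ s, (if ud (kk m) (yy m) then c m else 0) =
      ∑ i ∈ range (L + 1), ∑ z ∈ g.cube L x, (if ud i z ∧ tp i z = i then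
        (cd g i z)⁻¹ * (if Wr g ud tp i z (kk m) (yy m) then c m else 0) else 0) := by
    intro m _
    have e2 : (if ud (kk m) (yy m) then c m else 0) =
        (if ud (kk m) (yy m) then (1 : ℝ) else 0) * c m := by
      split_ifs <;> simp
    rw [e2, ← sum_win_one h hl (kk m) (yy m), sum_mul]
    refine sum_congr rfl fun i _ => ?_
    rw [sum_mul]
    refine sum_congr rfl fun z _ => ?_
    split_ifs <;> simp
  rw [sum_congr rfl e1, sum_comm]
  refine sum_congr rfl fun i _ => ?_
  rw [sum_comm]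
  refine sum_congr rfl fun z _ => ?_
  split_ifs
  · rw [mul_sum]
  · exact sum_const_zero

/-- the total of a region -/
theorem T4_win (nv : NV g α) (h : Rgn g gd L x ud) (hl : Lab g L tp) (A B C D : ℕ → X → ℝ) :
    T4 nv ud A B C D = ∑ i ∈ range (L + 1), ∑ z ∈ g.cube L x, (if ud i z ∧ tp i z = i then
      (cd g i z)⁻¹ * T4 nv (Wr g ud tp i z) A B C D else 0) :=
  sum_items h hl nv.nd nv.sc nv.pt _

/-- the sum of a density over a region -/
theorem Phi_win (h : Rgn g gd L x ud) (hl : Lab g L tp) (ph : ℕ → X → ℝ) :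
    Phi g ph L x ud = ∑ i ∈ range (L + 1), ∑ z ∈ g.cube L x, (if ud i z ∧ tp i z = i then
      (cd g i z)⁻¹ * Phi g ph i z (Wr g ud tp i z) else 0) := by
  have e1 := sum_items h hl (range (L + 1) ×ˢ g.cube L x) (fun m => m.1) (fun m => m.2)
    (fun m => ph m.1 m.2)
  rw [sum_product] at e1
  unfold Phi
  rw [e1]
  refine sum_congr rfl fun i hi => sum_congr rfl fun z hz => ?_
  have hiL : i ≤ L := by have := mem_range.1 hi; omega
  congr 2
  rw [sum_product]
  symm
  refine sum_subset_zero_on_sdiff (fun k hk => ?_) (fun k hk => ?_) (fun k _ => ?_)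
  · have := mem_range.1 hk
    exact mem_range.2 (by omega)
  · refine sum_eq_zero fun y _ => if_neg fun h4 => ?_
    rw [mem_sdiff, mem_range, mem_range] at hk
    have := h4.2.1
    simp only at this
    omega
  · refine sum_subset_zero_on_sdiff (g.cube_subset hiL hz) (fun y hy => if_neg fun h4 => ?_)
      (fun y _ => rfl)
    rw [mem_sdiff] at hy
    exact hy.2 h4.2.2.1

/-- **the total of a region is at most the sum of the totals of its windows** -/
theorem win_sum {nv : NV g α} (h : Rgn g gd L x ud) (hl : Lab g L tp) {A B C D : ℕ → X → ℝ}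
    {ph : ℕ → X → ℝ} {a b K : ℝ} (ha : 0 ≤ a) (_hb : 0 ≤ b) (hK : tops g ud tp L x ≤ K * cd g L x)
    (_hph : ∀ k y, 0 ≤ ph k y)
    (H : ∀ i ≤ L, ∀ z ∈ g.cube L x, ud i z → tp i z = i →
      T4 nv (Wr g ud tp i z) A B C D ≤ a * cd g i z + b * Phi g ph i z (Wr g ud tp i z)) :
    T4 nv ud A B C D ≤ a * K * cd g L x + b * Phi g ph L x ud := by
  rw [T4_win nv h hl, Phi_win h hl]
  have e1 : ∀ i ∈ range (L + 1), ∀ z ∈ g.cube L x, (if ud i z ∧ tp i z = i then
      (cd g i z)⁻¹ * T4 nv (Wr g ud tp i z) A B C D else 0) ≤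
      a * (if ud i z ∧ tp i z = i then (1 : ℝ) else 0) + b * (if ud i z ∧ tp i z = i then
      (cd g i z)⁻¹ * Phi g ph i z (Wr g ud tp i z) else 0) := by
    intro i hi z hz
    split_ifs with h1
    · have hc := cd_pos g i z
      have h2 := mul_le_mul_of_nonneg_left
        (H i (by have := mem_range.1 hi; omega) z hz h1.1 h1.2) (inv_pos.2 hc).le
      refine h2.trans (le_of_eq ?_)
      field_simp
    · simp
  refine (sum_le_sum fun i hi => sum_le_sum fun z hz => e1 i hi z hz).trans ?_
  simp_rw [sum_add_distrib, ← mul_sum]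
  have h3 := mul_le_mul_of_nonneg_left hK ha
  unfold tops at h3
  rw [← mul_assoc] at h3
  linarith

/-- comparison of two totals, window by window -/
theorem win_le {nv : NV g α} (h : Rgn g gd L x ud) (hl : Lab g L tp) {a : ℝ}
    {A B C D A' B' C' D' : ℕ → X → ℝ}
    (H : ∀ i ≤ L, ∀ z ∈ g.cube L x, ud i z → tp i z = i →
      T4 nv (Wr g ud tp i z) A B C D ≤
        a * cd g i z + T4 nv (Wr g ud tp i z) A' B' C' D') :
    T4 nv ud A B C D ≤ a * tops g ud tp L x + T4 nv ud A' B' C' D' := by
  rw [T4_win nv h hl A B C D, T4_win nv h hl A' B' C' D']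
  unfold tops
  rw [mul_sum, ← sum_add_distrib]
  refine sum_le_sum fun i hi => ?_
  rw [mul_sum, ← sum_add_distrib]
  refine sum_le_sum fun z hz => ?_
  split_ifs with h1
  · have hc := cd_pos g i z
    have h2 := mul_le_mul_of_nonneg_left
      (H i (by have := mem_range.1 hi; omega) z hz h1.1 h1.2) (inv_pos.2 hc).le
    refine h2.trans (le_of_eq ?_)
    field_simp
  · simp

end

end Vale.Agent.P141.H935
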