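import Vale.Agent.P141.H935.Frz2

/-!
# P141, line W: two moving slots on a window, from payments with static companions

`s_j (k) = V j (tp k) - V j k`: the births between a cell and the top of its window of the threshold
`e1`.  The pair `(s_a, s_b)` of the threshold `e1` is compared with the pair of the threshold
`e1 / 2`, on the windows of the minimum of the two labels: the differences are static there.  In the
limit nothing is left: `two_moving`.
-/

namespace Vale.Agent.P141.H935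

open Finset
open Vale.Agent.P141.H315 Vale.Agent.P141.PL.H318 Vale.Agent.P141.H347 Vale.Agent.P141.H8
open Vale.Agent.P141.H297 (Paths tp Sub du V_top_eq tp_const tp_between tp_le le_tp top_dist
  local_mass Mix packing_sub ind)

noncomputable section

open scoped Classical

variable {X ι α : Type*} {g : Grid X}

/-! ### Sums over windows -/

section sums

variable {gd ud : ℕ → X → Prop} {L : ℕ} {x : X} {tp : ℕ → X → ℕ}

theorem Cs_nonneg {ph : ℕ → X → ℝ} (hph : ∀ k y, 0 ≤ ph k y) : 0 ≤ Cs g ud L x ph := by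
  unfold Cs
  exact sum_nonneg fun l _ => sum_nonneg fun y _ => by
    split_ifs
    exacts [hph l y, le_rfl]

/-- the sums over the windows -/
theorem Cs_win (h : Rgn g gd L x ud) (hl : Lab g L tp) {ph : ℕ → X → ℝ}
    (hph : ∀ k y, 0 ≤ ph k y) :
    ∑ i ∈ range (L + 1), ∑ z ∈ g.cube L x, (if ud i z ∧ tp i z = i then
      (cd g i z)⁻¹ * Cs g (Wr g ud tp i z) i z ph else 0) ≤ Cs g ud L x ph := by
  have e1 := sum_items h hl (range L ×ˢ g.cube L x) (fun m => m.1) (fun m => m.2)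
    (fun m => ph m.1 m.2)
  rw [sum_product] at e1
  unfold Cs
  rw [e1]
  refine sum_le_sum fun i hi => sum_le_sum fun z hz => ?_
  have hiL : i ≤ L := by have := mem_range.1 hi; omega
  split_ifs with htop
  · refine mul_le_mul_of_nonneg_left ?_ (inv_nonneg.2 (cd_pos g i z).le)
    rw [← sum_product (s := range i) (t := g.cube i z)
      (f := fun m => if Wr g ud tp i z m.1 m.2 then ph m.1 m.2 else 0)]
    refine sum_le_sum_of_subset_of_nonneg (fun m hm => ?_) fun m _ _ => ?_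
    · rw [mem_product, mem_range] at hm ⊢
      exact ⟨by omega, g.cube_subset hiL hz hm.2⟩
    · split_ifs
      exacts [hph _ _, le_rfl]
  · exact le_rfl

/-- comparison of two totals, window by window, with the masses inside the windows -/
theorem win_all {nv : NV g α} (h : Rgn g gd L x ud) (hl : Lab g L tp) {a b : ℝ} (hb : 0 ≤ b)
    {A B C D A' B' C' D' : ℕ → X → ℝ} {ph : ℕ → X → ℝ} (hph : ∀ k y, 0 ≤ ph k y)
    (H : ∀ i ≤ L, ∀ z ∈ g.cube L x, ud i z → tp i z = i →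
      T4 nv (Wr g ud tp i z) A B C D ≤
        a * cd g i z + b * Cs g (Wr g ud tp i z) i z ph +
          T4 nv (Wr g ud tp i z) A' B' C' D') :
    T4 nv ud A B C D ≤ a * tops g ud tp L x + b * Cs g ud L x ph + T4 nv ud A' B' C' D' := by
  have h0 := mul_le_mul_of_nonneg_left (Cs_win h hl hph) hb
  refine le_trans ?_ (add_le_add (add_le_add le_rfl h0) le_rfl)
  rw [T4_win nv h hl A B C D, T4_win nv h hl A' B' C' D']
  unfold tops
  rw [mul_sum, mul_sum, ← sum_add_distrib, ← sum_add_distrib]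
  refine sum_le_sum fun i hi => ?_
  rw [mul_sum, mul_sum, ← sum_add_distrib, ← sum_add_distrib]
  refine sum_le_sum fun z hz => ?_
  split_ifs with h1
  · have hc := cd_pos g i z
    have h2 := mul_le_mul_of_nonneg_left
      (H i (by have := mem_range.1 hi; omega) z hz h1.1 h1.2) (inv_pos.2 hc).le
    refine h2.trans (le_of_eq ?_)
    field_simp
  · simp

/-- the smallness of the totals -/
theorem T4_small (nv : NV g α) (ud : ℕ → X → Prop) (A B : ℕ → X → ℝ) :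
    ∃ K : ℝ, 0 ≤ K ∧ ∀ (C D : ℕ → X → ℝ) (δ : ℝ), 0 ≤ δ →
      (∀ k y, ud k y → ∀ u ∈ g.cube k y, |C k u| ≤ δ ∧ |D k u| ≤ δ) →
      T4 nv ud A B C D ≤ K * δ ^ 2 := by
  set q : α → X → X → ℝ := fun N y y' => |nv.v N (A (nv.sc N)) (B (nv.sc N))
    (Pi.single y 1) (Pi.single y' 1)| with hq
  refine ⟨∑ N ∈ nv.nd, ∑ y ∈ g.cube (nv.sc N) (nv.pt N), ∑ y' ∈ g.cube (nv.sc N) (nv.pt N),
    q N y y', sum_nonneg fun N _ => sum_nonneg fun y _ => sum_nonneg fun y' _ => abs_nonneg _,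
    fun C D δ hδ h => ?_⟩
  unfold T4
  rw [sum_mul]
  refine sum_le_sum fun N _ => ?_
  have hnn : 0 ≤ ∑ y ∈ g.cube (nv.sc N) (nv.pt N), ∑ y' ∈ g.cube (nv.sc N) (nv.pt N), q N y y' :=
    sum_nonneg fun y _ => sum_nonneg fun y' _ => abs_nonneg _
  split_ifs with hu
  · set Q := g.cube (nv.sc N) (nv.pt N) with hQ
    have hsum : ∀ G : X → ℝ, ∀ y ∈ Q, G y = (∑ z ∈ Q, G z • (Pi.single z (1 : ℝ) : X → ℝ)) y := by
      intro G y hy
      rw [Finset.sum_apply, sum_eq_single y]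
      · simp
      · intro z _ hz
        simp [Pi.single_eq_of_ne hz.symm]
      · intro h'; exact absurd hy h'
    have e1 : nv.v N (A (nv.sc N)) (B (nv.sc N)) (C (nv.sc N)) (D (nv.sc N)) =
        nv.v N (A (nv.sc N)) (B (nv.sc N))
          (∑ z ∈ Q, C (nv.sc N) z • (Pi.single z (1 : ℝ) : X → ℝ))
          (∑ z ∈ Q, D (nv.sc N) z • (Pi.single z (1 : ℝ) : X → ℝ)) :=
      nv.congr N _ _ _ _ _ _ _ _ fun y hy => ⟨rfl, rfl, hsum _ y hy, hsum _ y hy⟩
    rw [e1, v_sum3]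
    refine (abs_sum_le_sum_abs _ _).trans ?_
    rw [sum_mul]
    refine sum_le_sum fun y hy => ?_
    rw [v_sum4, abs_mul, sum_mul]
    have h1 := (h _ _ hu y hy).1
    have h2 : |∑ z ∈ Q, D (nv.sc N) z * nv.v N (A (nv.sc N)) (B (nv.sc N)) (Pi.single y 1)
        (Pi.single z 1)| ≤ ∑ z ∈ Q, δ * q N y z := by
      refine (abs_sum_le_sum_abs _ _).trans (sum_le_sum fun z hz => ?_)
      rw [abs_mul]
      exact mul_le_mul_of_nonneg_right (h _ _ hu z hz).2 (abs_nonneg _)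
    have h3 : 0 ≤ ∑ z ∈ Q, δ * q N y z :=
      sum_nonneg fun z _ => mul_nonneg hδ (abs_nonneg _)
    refine (mul_le_mul h1 h2 (abs_nonneg _) hδ).trans (le_of_eq ?_)
    rw [mul_sum]
    exact sum_congr rfl fun z _ => by ring
  · exact mul_nonneg hnn (by positivity)

end sums

/-! ### Two thresholds -/

variable {J : Type*} [Fintype J] {S : J → CSys g ι}
  {w : ∀ j, LW (S j)} {L : ℕ} {e : ℝ} {F : J → X → ℝ} {gd : ℕ → X → Prop}
  {V H : J → ℕ → X → ℝ} {rs : J → ℕ → X → Prop} {lm : J → ℕ → X → ℝ} {C2 : ℝ}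

/-- **Payments with static companions**: the families `A`, `B` are fixed, the third slot is any
static function `Z`, of local energy `eZ ≤ EZ`. -/
structure PayZ (nv : NV g α) (L : ℕ) (ud : ℕ → X → Prop) (A B : ℕ → X → ℝ) {Sa Sb : CSys g ι}
    (wa : LW Sa) (wb : LW Sb) (EZ p : ℝ) : Prop where
  pay3 : ∀ L' x' ud', Rgn g ud L' x' ud' → ud' L' x' → ∀ (Z : X → ℝ) (eZ : ℝ), 0 ≤ eZ →
    eZ ≤ EZ → En g ud' Z eZ → ∀ j, L' ≤ j → j ≤ L → ∀ i,
    T4 nv ud' A B (st (Sa.a j i)) (st Z) ≤ p * √eZ * wa.ω j L' x' i * cd g L' x'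
  pay4 : ∀ L' x' ud', Rgn g ud L' x' ud' → ud' L' x' → ∀ (Z : X → ℝ) (eZ : ℝ), 0 ≤ eZ →
    eZ ≤ EZ → En g ud' Z eZ → ∀ j, L' ≤ j → j ≤ L → ∀ i,
    T4 nv ud' A B (st Z) (st (Sb.a j i)) ≤ p * √eZ * wb.ω j L' x' i * cd g L' x'

/-- the births between a cell and the top of its window -/
def sv (w : ∀ j, LW (S j)) (L : ℕ) (gd : ℕ → X → Prop) (V H : J → ℕ → X → ℝ)
    (rs : J → ℕ → X → Prop) (C2 e1 : ℝ) (j : J) (k : ℕ) (u : X) : ℝ :=
  V j (tp w L gd V H rs e1 C2 k u) u - V j k u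

/-- the minimum of two labels and of the top scale -/
def ml (w : ∀ j, LW (S j)) (L : ℕ) (gd : ℕ → X → Prop) (V H : J → ℕ → X → ℝ)
    (rs : J → ℕ → X → Prop) (C2 e1 e2 : ℝ) (K : ℕ) (k : ℕ) (u : X) : ℕ :=
  min K (min (tp w L gd V H rs e1 C2 k u) (tp w L gd V H rs e2 C2 k u))

theorem lab_ml (w : ∀ j, LW (S j)) (L : ℕ) (gd : ℕ → X → Prop) (V H : J → ℕ → X → ℝ)
    (rs : J → ℕ → X → Prop) (C2 e1 e2 : ℝ) {K : ℕ} (hK : K ≤ L) :
    Lab g K (ml w L gd V H rs C2 e1 e2 K) where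
  const k hk x y hy := by
    unfold ml
    rw [tp_const w L gd V H rs e1 C2 (hk.trans hK) hy, tp_const w L gd V H rs e2 C2 (hk.trans hK) hy]
  ge k hk x := le_min hk (le_min (le_tp w L gd V H rs e1 C2 (hk.trans hK) x)
    (le_tp w L gd V H rs e2 C2 (hk.trans hK) x))
  le k _ x := min_le_left _ _
  btw k hk x i h1 h2 := by
    unfold ml at h2 ⊢
    rw [tp_between w L gd V H rs e1 C2 (hk.trans hK) h1
      (h2.trans ((min_le_right _ _).trans (min_le_left _ _))),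
      tp_between w L gd V H rs e2 C2 (hk.trans hK) h1
      (h2.trans ((min_le_right _ _).trans (min_le_right _ _)))]

/-- the births above a cell up to a scale below the top of its window -/
theorem s_eq' (hP : Paths w L e F gd V H rs lm) {e1 : ℝ} (j : J) {k Λ Λ' : ℕ} (hk : k ≤ Λ)
    (hΛ : Λ ≤ Λ') (hΛ' : Λ' ≤ L) {y u : X} (hw : tp w L gd V H rs e1 C2 k y = Λ')
    (hu : u ∈ g.cube k y) :
    V j Λ u - V j k u = Ps Λ (fun m => birth (S j) m (H j m)) k u := by
  have h1 := V_top_eq (e' := e1) (C2 := C2) hP j hΛ' (hk.trans hΛ) hw hu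
  have h2 : tp w L gd V H rs e1 C2 Λ y = Λ' := by
    rw [tp_between w L gd V H rs e1 C2 (hk.trans (hΛ.trans hΛ')) hk (by rw [hw]; exact hΛ), hw]
  have h3 := V_top_eq (e' := e1) (C2 := C2) hP j hΛ' hΛ h2
    (g.cube_subset hk (g.mem Λ y) hu)
  rw [Ps_apply, h1, h3, ← sum_Ico_consecutive _ hk hΛ]
  ring

section window

variable {nv : NV g α} {gd' ud : ℕ → X → Prop} {K : ℕ} {x : X} {A B : ℕ → X → ℝ}

/-- energy of a difference -/
theorem en_diff {ud' : ℕ → X → Prop} {F1 F2 : X → ℝ} {G : ℕ → X → ℝ} {c1 c2 : ℝ}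
    (h1 : ∀ k y, ud' k y → ∑ u ∈ g.cube k y, (F1 u - G k u) ^ 2 ≤ c1 * cd g k y)
    (h2 : ∀ k y, ud' k y → ∑ u ∈ g.cube k y, (F2 u - G k u) ^ 2 ≤ c2 * cd g k y) :
    En g ud' (fun u => F1 u - F2 u) (2 * c1 + 2 * c2) := by
  intro k y hky
  have h3 : dot (g.cube k y) (fun u => F1 u - F2 u) (fun u => F1 u - F2 u) ≤
      ∑ u ∈ g.cube k y, (2 * (F1 u - G k u) ^ 2 + 2 * (F2 u - G k u) ^ 2) := by
    unfold dot
    refine sum_le_sum fun u _ => ?_
    nlinarith [sq_nonneg ((F1 u - G k u) + (F2 u - G k u))]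
  rw [sum_add_distrib, ← mul_sum, ← mul_sum] at h3
  have h4 := h1 k y hky
  have h5 := h2 k y hky
  nlinarith

/-- **one window of the minimum of two labels** -/
theorem two_window (hP : Paths w L e F gd V H rs lm) {B0 : ℝ}
    (hB : ∀ k x, cd g (k + 1) x ≤ B0 * cd g k x) (hC2 : 0 ≤ C2) {e1 e2 : ℝ} (he2 : 0 ≤ e2)
    (he : e2 ≤ e1) {EZ p : ℝ} (hp : 0 ≤ p) (hR : Rgn g gd' K x ud) (hK : K ≤ L) {a b : J}
    (hpay : PayZ nv L ud A B (w a) (w b) EZ p) (hEZ : 8 * (B0 * C2 + 3) * e1 ≤ EZ) {Λ : ℕ} (hΛ : Λ ≤ K) {z : X} (hz : ud Λ z)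
    (hM : ml w L gd V H rs C2 e1 e2 K Λ z = Λ) (hB0 : 0 ≤ B0) :
    T4 nv (Wr g ud (ml w L gd V H rs C2 e1 e2 K) Λ z) A B
        (sv w L gd V H rs C2 e1 a) (sv w L gd V H rs C2 e1 b) ≤
      p * √(8 * (B0 * C2 + 3) * e1) * (e1 + e2) * cd g Λ z +
      p * √(8 * (B0 * C2 + 3) * e1) *
        Cs g (Wr g ud (ml w L gd V H rs C2 e1 e2 K) Λ z) Λ z
          (fun l y => lden (w a) l l (H a l) y + lden (w b) l l (H b l) y) +
      T4 nv (Wr g ud (ml w L gd V H rs C2 e1 e2 K) Λ z) A B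
        (sv w L gd V H rs C2 e2 a) (sv w L gd V H rs C2 e2 b) := by
  set W' := Wr g ud (ml w L gd V H rs C2 e1 e2 K) Λ z with hW'
  have he1 : 0 ≤ e1 := he2.trans he
  have hΛL : Λ ≤ L := hΛ.trans hK
  have hRW : Rgn g gd' Λ z W' := hR.win (lab_ml w L gd V H rs C2 e1 e2 hK) hΛ z
  have hRW' : Rgn g ud Λ z W' := ⟨hRW.const, hRW.up, hRW.bel, fun k y hy => hy.1⟩
  have htopW : W' Λ z := ⟨hz, le_rfl, g.mem Λ z, hM⟩
  set Λ1 := tp w L gd V H rs e1 C2 Λ z with hΛ1
  set Λ2 := tp w L gd V H rs e2 C2 Λ z with hΛ2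
  have hΛ1L : Λ1 ≤ L := tp_le w L gd V H rs e1 C2 hΛL z
  have hΛ2L : Λ2 ≤ L := tp_le w L gd V H rs e2 C2 hΛL z
  have h01 : Λ ≤ Λ1 := le_tp w L gd V H rs e1 C2 hΛL z
  have h02 : Λ ≤ Λ2 := le_tp w L gd V H rs e2 C2 hΛL z
  -- the labels on the window
  have lb1 : ∀ k y, W' k y → k ≤ Λ ∧ tp w L gd V H rs e1 C2 k y = Λ1 ∧
      tp w L gd V H rs e2 C2 k y = Λ2 := by
    rintro k y ⟨h1, h2, h3, h4⟩
    have h5 : Λ ≤ tp w L gd V H rs e1 C2 k y := by
      rw [← h4]; exact (min_le_right _ _).trans (min_le_left _ _)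
    have h6 : Λ ≤ tp w L gd V H rs e2 C2 k y := by
      rw [← h4]; exact (min_le_right _ _).trans (min_le_right _ _)
    refine ⟨h2, ?_, ?_⟩
    · rw [hΛ1, ← tp_between w L gd V H rs e1 C2 (h2.trans hΛL) h2 h5,
        tp_const w L gd V H rs e1 C2 hΛL h3]
    · rw [hΛ2, ← tp_between w L gd V H rs e2 C2 (h2.trans hΛL) h2 h6,
        tp_const w L gd V H rs e2 C2 hΛL h3]
  -- the energies of the differences
  set E : ℝ := 8 * (B0 * C2 + 3) * e1 with hE
  have hE0 : 0 ≤ E := by positivity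
  set D : J → X → ℝ := fun j u => V j Λ1 u - V j Λ2 u with hD
  have eD : ∀ j, En g W' (D j) E := by
    intro j
    have h1 := en_diff (g := g) (ud' := W') (F1 := V j Λ1) (F2 := V j Λ2) (G := V j)
      (c1 := 2 * (B0 * C2 + 3) * e1) (c2 := 2 * (B0 * C2 + 3) * e2)
      (fun k y hky => by
        obtain ⟨h2, h3, _⟩ := lb1 k y hky
        refine (top_dist hP j hB he1 hC2 hΛ1L (h2.trans h01) h3).trans (le_of_eq (by ring)))
      (fun k y hky => by
        obtain ⟨h2, _, h3⟩ := lb1 k y hky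
        refine (top_dist hP j hB he2 hC2 hΛ2L (h2.trans h02) h3).trans (le_of_eq (by ring)))
    have h4 : 2 * (B0 * C2 + 3) * e2 ≤ 2 * (B0 * C2 + 3) * e1 :=
      mul_le_mul_of_nonneg_left he (by positivity)
    have h5 : 2 * (2 * (B0 * C2 + 3) * e1) + 2 * (2 * (B0 * C2 + 3) * e2) ≤ E := by
      rw [hE]; linarith
    exact fun k y hky => (h1 k y hky).trans (mul_le_mul_of_nonneg_right h5 (cd_pos g k y).le)
  set r : ℝ := p * √E with hr
  have hr0 : 0 ≤ r := mul_nonneg hp (Real.sqrt_nonneg _)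
  -- payments of the births between a threshold top and the cells
  have payb : ∀ {Λ' : ℕ} {ε : ℝ}, 0 ≤ ε → Λ ≤ Λ' → Λ' ≤ L →
      (∀ k y, W' k y → tp w L gd V H rs ε C2 k y = Λ') →
      T4 nv W' A B (st (D a)) (fun k u => V b Λ' u - V b k u) ≤
        r * ε * cd g Λ z + r * Cs g W' Λ z (fun l y => lden (w b) l l (H b l) y) := by
    intro Λ' ε hε h1 h2 h3
    have hs : T4 nv W' A B (st (D a)) (fun k u => V b Λ' u - V b k u) ≤
        T4 nv W' A B (st (D a)) (st fun u => V b Λ' u - V b Λ u) +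
        T4 nv W' A B (st (D a)) (fun k u => V b Λ u - V b k u) := by
      refine le_trans (le_of_eq ?_) (T4_add4 A B (st (D a)) (st fun u => V b Λ' u - V b Λ u)
        (fun k u => V b Λ u - V b k u))
      refine T4_congr fun k y _ u _ => ⟨rfl, rfl, rfl, ?_⟩
      simp [st]
    refine hs.trans (add_le_add ?_ ?_)
    · have h4 : tp w L gd V H rs ε C2 Λ z = Λ' := h3 Λ z htopW
      refine (pay_static4 (e' := ε) (C2 := C2) nv hP h2 h1 hRW' h4 b (p := r)
        (fun l hl1 hl2 i _ => hpay.pay4 Λ z W' hRW' htopW (D a) E hE0 hEZ (eD a) l hl1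
          (by omega) i)).trans ?_
      have h5 := local_mass (e' := ε) (C2 := C2) hP b hε h2 h1 h4
      exact mul_le_mul_of_nonneg_right (mul_le_mul_of_nonneg_left h5 hr0) (cd_pos g Λ z).le
    · refine le_trans (le_of_eq ?_) (pay_births4 (w := w b) (H := H b) nv hRW' (A := A) (B := B)
        (C := st (D a)) (p := r) fun l hl y hy hu i _ => ?_)
      · refine T4_congr fun k y hy u hu => ⟨rfl, rfl, rfl, ?_⟩
        exact s_eq' (e1 := ε) (C2 := C2) hP b (lb1 k y hy).1 h1 h2 (h3 k y hy) hu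
      · exact hpay.pay4 l y (Dn g W' l y) (rgn_dn hRW' hl.le y) ⟨hu, le_rfl, g.mem l y⟩ (D a) E
          hE0 hEZ (fun k v hv => eD a k v hv.1) l le_rfl (by omega) i
  have paya : ∀ {Λ' : ℕ} {ε : ℝ}, 0 ≤ ε → Λ ≤ Λ' → Λ' ≤ L →
      (∀ k y, W' k y → tp w L gd V H rs ε C2 k y = Λ') →
      T4 nv W' A B (fun k u => V a Λ' u - V a k u) (st (D b)) ≤
        r * ε * cd g Λ z + r * Cs g W' Λ z (fun l y => lden (w a) l l (H a l) y) := by
    intro Λ' ε hε h1 h2 h3
    have hs : T4 nv W' A B (fun k u => V a Λ' u - V a k u) (st (D b)) ≤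
        T4 nv W' A B (st fun u => V a Λ' u - V a Λ u) (st (D b)) +
        T4 nv W' A B (fun k u => V a Λ u - V a k u) (st (D b)) := by
      refine le_trans (le_of_eq ?_) (T4_add3 A B (st fun u => V a Λ' u - V a Λ u)
        (fun k u => V a Λ u - V a k u) (st (D b)))
      refine T4_congr fun k y _ u _ => ⟨rfl, rfl, ?_, rfl⟩
      simp [st]
    refine hs.trans (add_le_add ?_ ?_)
    · have h4 : tp w L gd V H rs ε C2 Λ z = Λ' := h3 Λ z htopW
      refine (pay_static3 (e' := ε) (C2 := C2) nv hP h2 h1 hRW' h4 a (p := r)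
        (fun l hl1 hl2 i _ => hpay.pay3 Λ z W' hRW' htopW (D b) E hE0 hEZ (eD b) l hl1
          (by omega) i)).trans ?_
      have h5 := local_mass (e' := ε) (C2 := C2) hP a hε h2 h1 h4
      exact mul_le_mul_of_nonneg_right (mul_le_mul_of_nonneg_left h5 hr0) (cd_pos g Λ z).le
    · refine le_trans (le_of_eq ?_) (pay_births3 (w := w a) (H := H a) nv hRW' (A := A) (B := B)
        (D := st (D b)) (p := r) fun l hl y hy hu i _ => ?_)
      · refine T4_congr fun k y hy u hu => ⟨rfl, rfl, ?_, rfl⟩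
        exact s_eq' (e1 := ε) (C2 := C2) hP a (lb1 k y hy).1 h1 h2 (h3 k y hy) hu
      · exact hpay.pay3 l y (Dn g W' l y) (rgn_dn hRW' hl.le y) ⟨hu, le_rfl, g.mem l y⟩ (D b) E
          hE0 hEZ (fun k v hv => eD b k v hv.1) l le_rfl (by omega) i
  -- the splitting
  have hsv1 : ∀ j, ∀ k y, W' k y → ∀ u ∈ g.cube k y,
      sv w L gd V H rs C2 e1 j k u = V j Λ1 u - V j k u := by
    intro j k y hky u hu
    unfold sv
    rw [tp_const w L gd V H rs e1 C2 ((lb1 k y hky).1.trans hΛL) hu, (lb1 k y hky).2.1]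
  have hsv2 : ∀ j, ∀ k y, W' k y → ∀ u ∈ g.cube k y,
      sv w L gd V H rs C2 e2 j k u = V j Λ2 u - V j k u := by
    intro j k y hky u hu
    unfold sv
    rw [tp_const w L gd V H rs e2 C2 ((lb1 k y hky).1.trans hΛL) hu, (lb1 k y hky).2.2]
  have s1 : T4 nv W' A B (sv w L gd V H rs C2 e1 a) (sv w L gd V H rs C2 e1 b) ≤
      T4 nv W' A B (st (D a)) (fun k u => V b Λ1 u - V b k u) +
      T4 nv W' A B (fun k u => V a Λ2 u - V a k u) (fun k u => V b Λ1 u - V b k u) := by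
    refine le_trans (le_of_eq ?_) (T4_add3 A B (st (D a)) (fun k u => V a Λ2 u - V a k u)
      (fun k u => V b Λ1 u - V b k u))
    refine T4_congr fun k y hy u hu => ⟨rfl, rfl, ?_, hsv1 b k y hy u hu⟩
    rw [hsv1 a k y hy u hu]
    simp [st, hD]
  have s2 : T4 nv W' A B (fun k u => V a Λ2 u - V a k u) (fun k u => V b Λ1 u - V b k u) ≤
      T4 nv W' A B (fun k u => V a Λ2 u - V a k u) (st (D b)) +
      T4 nv W' A B (sv w L gd V H rs C2 e2 a) (sv w L gd V H rs C2 e2 b) := by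
    have h1 : T4 nv W' A B (sv w L gd V H rs C2 e2 a) (sv w L gd V H rs C2 e2 b) =
        T4 nv W' A B (fun k u => V a Λ2 u - V a k u) (fun k u => V b Λ2 u - V b k u) :=
      T4_congr fun k y hy u hu => ⟨rfl, rfl, hsv2 a k y hy u hu, hsv2 b k y hy u hu⟩
    rw [h1]
    refine le_trans (le_of_eq ?_) (T4_add4 A B (fun k u => V a Λ2 u - V a k u) (st (D b))
      (fun k u => V b Λ2 u - V b k u))
    refine T4_congr fun k y hy u hu => ⟨rfl, rfl, rfl, ?_⟩
    simp [st, hD]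
  have q1 := payb he1 h01 hΛ1L fun k y hky => (lb1 k y hky).2.1
  have q2 := paya he2 h02 hΛ2L fun k y hky => (lb1 k y hky).2.2
  have q3 := Cs_add (g := g) (ud := W') (L := Λ) (x := z)
    (fun l y => lden (w a) l l (H a l) y) (fun l y => lden (w b) l l (H b l) y)
  rw [q3]
  nlinarith

/-- the tops of the minimum of two labels -/
theorem tops_ml {e1 e2 q1 q2 : ℝ}
    (h1 : ∑ i ∈ range (K + 1), ∑ z ∈ g.cube K x,
      ind (ud i z ∧ tp w L gd V H rs e1 C2 i z = i) ≤ q1 * cd g K x)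
    (h2 : ∑ i ∈ range (K + 1), ∑ z ∈ g.cube K x,
      ind (ud i z ∧ tp w L gd V H rs e2 C2 i z = i) ≤ q2 * cd g K x) :
    tops g ud (ml w L gd V H rs C2 e1 e2 K) K x ≤ (1 + q1 + q2) * cd g K x := by
  have h3 : ∑ i ∈ range (K + 1), ∑ z ∈ g.cube K x, ind (ud i z ∧ i = K) ≤ cd g K x := by
    rw [sum_eq_single K]
    · unfold cd
      refine (sum_le_card_nsmul _ _ 1 fun z _ => ?_).trans (by simp)
      unfold ind; split_ifs <;> norm_num
    · intro i _ hi
      refine sum_eq_zero fun z _ => ?_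
      unfold ind
      rw [if_neg fun h => hi h.2]
    · intro h; exact absurd (mem_range.2 (Nat.lt_succ_self K)) h
  have h4 : tops g ud (ml w L gd V H rs C2 e1 e2 K) K x ≤
      ∑ i ∈ range (K + 1), ∑ z ∈ g.cube K x, ind (ud i z ∧ i = K) +
      ∑ i ∈ range (K + 1), ∑ z ∈ g.cube K x,
        ind (ud i z ∧ tp w L gd V H rs e1 C2 i z = i) +
      ∑ i ∈ range (K + 1), ∑ z ∈ g.cube K x,
        ind (ud i z ∧ tp w L gd V H rs e2 C2 i z = i) := by
    unfold tops
    rw [← sum_add_distrib, ← sum_add_distrib]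
    refine sum_le_sum fun i hi => ?_
    rw [← sum_add_distrib, ← sum_add_distrib]
    refine sum_le_sum fun z hz => ?_
    have n1 := Vale.Agent.P141.H297.ind_nonneg (ud i z ∧ i = K)
    have n2 := Vale.Agent.P141.H297.ind_nonneg (ud i z ∧ tp w L gd V H rs e1 C2 i z = i)
    have n3 := Vale.Agent.P141.H297.ind_nonneg (ud i z ∧ tp w L gd V H rs e2 C2 i z = i)
    split_ifs with hm
    · obtain ⟨hu, hm⟩ := hm
      unfold ml at hm
      rcases min_choice K (min (tp w L gd V H rs e1 C2 i z) (tp w L gd V H rs e2 C2 i z)) with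
        hc | hc
      · rw [hc] at hm
        rw [Vale.Agent.P141.H297.ind_true ⟨hu, hm.symm⟩]
        linarith
      · rw [hc] at hm
        rcases min_choice (tp w L gd V H rs e1 C2 i z) (tp w L gd V H rs e2 C2 i z) with hd | hd
        · rw [hd] at hm
          rw [Vale.Agent.P141.H297.ind_true (p := ud i z ∧ tp w L gd V H rs e1 C2 i z = i) ⟨hu, hm⟩]
          linarith
        · rw [hd] at hm
          rw [Vale.Agent.P141.H297.ind_true (p := ud i z ∧ tp w L gd V H rs e2 C2 i z = i) ⟨hu, hm⟩]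
          linarith
    · linarith
  refine h4.trans ?_
  nlinarith

/-- **one step: the threshold `e1` against the threshold `e2`**, on a region -/
theorem two_step (hP : Paths w L e F gd V H rs lm) {B0 : ℝ}
    (hB : ∀ k x, cd g (k + 1) x ≤ B0 * cd g k x) (hC2 : 0 ≤ C2) {e1 e2 : ℝ} (he2 : 0 ≤ e2)
    (he : e2 ≤ e1) {EZ p : ℝ} (hp : 0 ≤ p) (hR : Rgn g gd' K x ud) (hx : ud K x) {R D : ℝ}
    (hU : Sub S L gd H rs K ud R D) {a b : J} (hpay : PayZ nv L ud A B (w a) (w b) EZ p)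
    (hEZ : 8 * (B0 * C2 + 3) * e1 ≤ EZ) (hB0 : 0 ≤ B0) {q1 q2 : ℝ}
    (h1 : ∑ i ∈ range (K + 1), ∑ z ∈ g.cube K x,
      ind (ud i z ∧ tp w L gd V H rs e1 C2 i z = i) ≤ q1 * cd g K x)
    (h2 : ∑ i ∈ range (K + 1), ∑ z ∈ g.cube K x,
      ind (ud i z ∧ tp w L gd V H rs e2 C2 i z = i) ≤ q2 * cd g K x) :
    T4 nv ud A B (sv w L gd V H rs C2 e1 a) (sv w L gd V H rs C2 e1 b) ≤
      p * √(8 * (B0 * C2 + 3) * e1) * ((e1 + e2) * (1 + q1 + q2) + 2 * D) * cd g K x +
      T4 nv ud A B (sv w L gd V H rs C2 e2 a) (sv w L gd V H rs C2 e2 b) := by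
  have he1 : 0 ≤ e1 := he2.trans he
  have hr0 : 0 ≤ p * √(8 * (B0 * C2 + 3) * e1) := mul_nonneg hp (Real.sqrt_nonneg _)
  have key := win_all (nv := nv) (a := p * √(8 * (B0 * C2 + 3) * e1) * (e1 + e2))
    (b := p * √(8 * (B0 * C2 + 3) * e1)) (A := A) (B := B)
    (C := sv w L gd V H rs C2 e1 a) (D := sv w L gd V H rs C2 e1 b) (A' := A) (B' := B)
    (C' := sv w L gd V H rs C2 e2 a) (D' := sv w L gd V H rs C2 e2 b)
    (ph := fun l y => lden (w a) l l (H a l) y + lden (w b) l l (H b l) y)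
    hR (lab_ml w L gd V H rs C2 e1 e2 hU.le) hr0
    (fun k y => add_nonneg (lden_nonneg _ _ _ _ _) (lden_nonneg _ _ _ _ _))
    (fun i hi z _ hz hM =>
      two_window hP hB hC2 he2 he hp hR hU.le hpay hEZ hi hz hM hB0)
  refine key.trans (add_le_add ?_ le_rfl)
  have ht := tops_ml (w := w) (L := L) (gd := gd) (V := V) (H := H) (rs := rs) (C2 := C2) h1 h2
  have ha := Cs_lden_le (w := w) hU hx a
  have hb := Cs_lden_le (w := w) hU hx b
  rw [Cs_add (g := g) (ud := ud) (L := K) (x := x)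
    (fun l y => lden (w a) l l (H a l) y) (fun l y => lden (w b) l l (H b l) y)]
  have h3 := mul_le_mul_of_nonneg_left ht
    (show 0 ≤ p * √(8 * (B0 * C2 + 3) * e1) * (e1 + e2) by positivity)
  have h4 := mul_le_mul_of_nonneg_left (add_le_add ha hb) hr0
  refine (add_le_add h3 h4).trans (le_of_eq ?_)
  ring

/-- pointwise size of the births between a cell and the top of its window -/
theorem sv_abs (hP : Paths w L e F gd V H rs lm) {B0 : ℝ}
    (hB : ∀ k x, cd g (k + 1) x ≤ B0 * cd g k x) (hB0 : 0 ≤ B0) (hC2 : 0 ≤ C2) {e1 : ℝ}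
    (he1 : 0 ≤ e1) (hR : Rgn g gd' K x ud) (hK : K ≤ L) (j : J) {k : ℕ} {y : X} (hy : ud k y)
    {u : X} (hu : u ∈ g.cube k y) :
    |sv w L gd V H rs C2 e1 j k u| ≤ √(2 * (B0 * C2 + 3) * (e1 * cd g K x)) := by
  obtain ⟨hk, hyK⟩ := hR.bel k y hy
  have hkL : k ≤ L := hk.trans hK
  refine Real.abs_le_sqrt ?_
  have h1 := top_dist (e' := e1) (C2 := C2) hP j hB he1 hC2 (tp_le w L gd V H rs e1 C2 hkL y)
    (le_tp w L gd V H rs e1 C2 hkL y) rfl
  have h2 := single_le_sum (f := fun v => (V j (tp w L gd V H rs e1 C2 k y) v - V j k v) ^ 2)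
    (fun v _ => sq_nonneg _) hu
  have h3 : sv w L gd V H rs C2 e1 j k u ^ 2 =
      (V j (tp w L gd V H rs e1 C2 k y) u - V j k u) ^ 2 := by
    unfold sv
    rw [tp_const w L gd V H rs e1 C2 hkL hu]
  rw [h3]
  refine (h2.trans h1).trans ?_
  have h4 : cd g k y ≤ cd g K x := by
    unfold cd
    exact_mod_cast card_le_card fun v hv => g.cube_subset hk hyK hv
  have h5 : e1 * cd g k y ≤ e1 * cd g K x := mul_le_mul_of_nonneg_left h4 he1
  exact mul_le_mul_of_nonneg_left h5 (by positivity)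

/-- the halving of the thresholds -/
theorem halving {T : ℝ → ℝ} {e0 C M : ℝ} (he0 : 0 ≤ e0) (hC : 0 ≤ C) (hM : 0 ≤ M)
    (h1 : ∀ m : ℕ, T (e0 / 2 ^ m) ≤ C * √(e0 / 2 ^ m) + T (e0 / 2 ^ (m + 1)))
    (h2 : ∀ m : ℕ, T (e0 / 2 ^ m) ≤ M * (e0 / 2 ^ m)) : T e0 ≤ 4 * C * √e0 := by
  have s1 : ∀ m : ℕ, √(e0 / 2 ^ (m + 1)) ≤ 3 / 4 * √(e0 / 2 ^ m) := by
    intro m
    have h3 : 0 ≤ e0 / 2 ^ m := by positivity
    rw [show (3 / 4 : ℝ) * √(e0 / 2 ^ m) = √((3 / 4) ^ 2 * (e0 / 2 ^ m)) by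
      rw [Real.sqrt_mul (by norm_num), Real.sqrt_sq (by norm_num)]]
    refine Real.sqrt_le_sqrt ?_
    rw [pow_succ, ← div_div]
    linarith
  have s2 : ∀ m : ℕ, T e0 ≤ 4 * C * (√e0 - √(e0 / 2 ^ m)) + T (e0 / 2 ^ m) := by
    intro m
    induction m with
    | zero => simp
    | succ m ih =>
      have h3 := s1 m
      have h4 := h1 m
      have h5 : C * √(e0 / 2 ^ (m + 1)) ≤ C * (3 / 4 * √(e0 / 2 ^ m)) :=
        mul_le_mul_of_nonneg_left h3 hC
      linarith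
  refine le_of_forall_pos_le_add fun ε hε => ?_
  obtain ⟨m, hm⟩ := exists_pow_lt_of_lt_one (show 0 < ε / (M * e0 + 1) by positivity)
    (show (1 / 2 : ℝ) < 1 by norm_num)
  have h3 := s2 m
  have h4 := h2 m
  have h5 : M * (e0 / 2 ^ m) ≤ ε := by
    have h6 : e0 / 2 ^ m = e0 * (1 / 2) ^ m := by
      rw [one_div, inv_pow, div_eq_mul_inv]
    have h7 : (0 : ℝ) < M * e0 + 1 := by positivity
    rw [lt_div_iff₀ h7] at hm
    have h8 : (0 : ℝ) ≤ (1 / 2) ^ m := by positivity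
    rw [h6]
    nlinarith
  have h6 : 0 ≤ 4 * C * √(e0 / 2 ^ m) := by positivity
  nlinarith

/-- **Two moving slots, from payments with static companions.**  The families `A`, `B` in the other
two slots are fixed; a static function of local energy `eZ` in one of the last two slots and a born
atom in the other one pay `p √eZ` times the local weight.  Then the two residual births
`V j (top of the window) - V j k` together pay `C p D √e0`. -/
theorem two_moving (hP : Paths w L e F gd V H rs lm) {Cg : ℝ} (hM : ∀ j, Mix (S j) Cg)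
    (hCg : 0 ≤ Cg) {B0 : ℝ} (hB : ∀ k x, cd g (k + 1) x ≤ B0 * cd g k x)
    (hC2 : 4 * Fintype.card J * (1 + 2 * Cg) ≤ C2) {e0 : ℝ} (he0 : 0 < e0) {R D : ℝ}
    (hR0 : 0 ≤ R) (hD : e0 ≤ D) {EZ p : ℝ} (hp : 0 ≤ p) (hR : Rgn g gd' K x ud) (hx : ud K x)
    (hU : Sub S L gd H rs K ud R D) {a b : J} (hpay : PayZ nv L ud A B (w a) (w b) EZ p)
    (hEZ : 8 * (B0 * C2 + 3) * e0 ≤ EZ) :
    T4 nv ud A B (sv w L gd V H rs C2 e0 a) (sv w L gd V H rs C2 e0 b) ≤
      4 * (p * √(8 * (B0 * C2 + 3)) *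
        ((16 + 6 * B0 + 6 * B0 * Fintype.card J * R + 18 * B0 * Fintype.card J) * D) *
          cd g K x) * √e0 := by
  have hB0 : 0 ≤ B0 := by
    have h1 := hB 0 x
    have h2 := cd_pos g 0 x
    have h3 := cd_pos g 1 x
    by_contra hn
    push Not at hn
    norm_num at h1
    nlinarith
  have hC20 : 0 ≤ C2 := le_trans (by positivity) hC2
  have hc := cd_pos g K x
  have hD0 : 0 < D := he0.trans_le hD
  have hJ : (0 : ℝ) ≤ Fintype.card J := by positivity
  obtain ⟨M0, hM0, hsm⟩ := T4_small (g := g) nv ud A B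
  set q : ℝ → ℝ := fun ε =>
    2 * (2 + B0 + B0 * Fintype.card J * R + 2 * B0 * Fintype.card J * (D / ε)) with hq
  have pk : ∀ ε, 0 < ε → ∑ i ∈ range (K + 1), ∑ z ∈ g.cube K x,
      ind (ud i z ∧ tp w L gd V H rs ε C2 i z = i) ≤ q ε * cd g K x := fun ε hε =>
    packing_sub hP hU hM hCg hB hε hC2 le_rfl hx
  refine halving (T := fun ε => T4 nv ud A B (sv w L gd V H rs C2 ε a) (sv w L gd V H rs C2 ε b))
    (M := M0 * (2 * (B0 * C2 + 3) * cd g K x)) he0.le (by positivity) (by positivity)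
    (fun m => ?_) (fun m => ?_)
  · have p1 : 0 < e0 / 2 ^ m := by positivity
    have p2 : 0 < e0 / 2 ^ (m + 1) := by positivity
    have p3 : e0 / 2 ^ (m + 1) = e0 / 2 ^ m / 2 := by rw [pow_succ, ← div_div]
    have p4 : e0 / 2 ^ m ≤ e0 := div_le_self he0.le (one_le_pow₀ (by norm_num))
    have h1 := two_step (nv := nv) (A := A) (B := B) hP hB hC20 p2.le (by rw [p3]; linarith) hp hR
      hx hU hpay ((mul_le_mul_of_nonneg_left p4 (by positivity)).trans hEZ) hB0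
      (pk _ p1) (pk _ p2)
    refine h1.trans (add_le_add ?_ le_rfl)
    set ε := e0 / 2 ^ m with hε
    rw [p3]
    have h2 : √(8 * (B0 * C2 + 3) * ε) = √(8 * (B0 * C2 + 3)) * √ε :=
      Real.sqrt_mul (by positivity) _
    have h3 : (ε + ε / 2) * (1 + q ε + q (ε / 2)) + 2 * D ≤
        (16 + 6 * B0 + 6 * B0 * Fintype.card J * R + 18 * B0 * Fintype.card J) * D := by
      have h4 : (ε + ε / 2) * (1 + q ε + q (ε / 2)) =
          3 / 2 * ε * (9 + 4 * B0 + 4 * B0 * Fintype.card J * R) +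
            18 * B0 * Fintype.card J * D := by
        simp only [hq]
        field_simp
        ring
      rw [h4]
      have h5 : ε ≤ D := p4.trans hD
      have h6 : 0 ≤ 9 + 4 * B0 + 4 * B0 * Fintype.card J * R := by positivity
      have h7 := mul_le_mul_of_nonneg_right h5 h6
      nlinarith
    rw [h2]
    have h4 := mul_le_mul_of_nonneg_left h3
      (show 0 ≤ p * (√(8 * (B0 * C2 + 3)) * √ε) by positivity)
    refine (mul_le_mul_of_nonneg_right h4 hc.le).trans (le_of_eq (by ring))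
  · have p1 : 0 < e0 / 2 ^ m := by positivity
    have h1 := hsm (sv w L gd V H rs C2 (e0 / 2 ^ m) a) (sv w L gd V H rs C2 (e0 / 2 ^ m) b)
      (√(2 * (B0 * C2 + 3) * (e0 / 2 ^ m * cd g K x))) (Real.sqrt_nonneg _)
      (fun k y hy u hu => ⟨sv_abs hP hB hB0 hC20 p1.le hR hU.le a hy hu,
        sv_abs hP hB hB0 hC20 p1.le hR hU.le b hy hu⟩)
    rw [Real.sq_sqrt (by positivity)] at h1
    refine h1.trans (le_of_eq (by ring))

/-- **Two moving slots on one window.** -/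
theorem two_moving_win (hP : Paths w L e F gd V H rs lm) {Cg : ℝ} (hM : ∀ j, Mix (S j) Cg)
    (hCg : 0 ≤ Cg) {B0 : ℝ} (hB : ∀ k x, cd g (k + 1) x ≤ B0 * cd g k x)
    (hC2 : 4 * Fintype.card J * (1 + 2 * Cg) ≤ C2) {e0 : ℝ} (he0 : 0 < e0) {R D : ℝ}
    (hR0 : 0 ≤ R) (hD : e0 ≤ D) {EZ p : ℝ} (hp : 0 ≤ p) (hR : Rgn g gd' K x ud) (hx : ud K x)
    (hU : Sub S L gd H rs K ud R D) {a b : J} (hpay : PayZ nv L ud A B (w a) (w b) EZ p)
    (hEZ : 8 * (B0 * C2 + 3) * e0 ≤ EZ) {Λ0 : ℕ}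
    (hw : ∀ k y, ud k y → tp w L gd V H rs e0 C2 k y = Λ0) :
    T4 nv ud A B (fun k u => V a Λ0 u - V a k u) (fun k u => V b Λ0 u - V b k u) ≤
      4 * (p * √(8 * (B0 * C2 + 3)) *
        ((16 + 6 * B0 + 6 * B0 * Fintype.card J * R + 18 * B0 * Fintype.card J) * D) *
          cd g K x) * √e0 := by
  refine le_trans (le_of_eq ?_) (two_moving (a := a) (b := b) hP hM hCg hB hC2 he0 hR0 hD hp hR hx
    hU hpay hEZ)
  have key : ∀ j k y, ud k y → ∀ u ∈ g.cube k y,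
      V j Λ0 u - V j k u = sv w L gd V H rs C2 e0 j k u := by
    intro j k y hy u hu
    unfold sv
    rw [tp_const w L gd V H rs e0 C2 ((hR.bel k y hy).1.trans hU.le) hu, hw k y hy]
  exact T4_congr fun k y hy u hu => ⟨rfl, rfl, key a k y hy u hu, key b k y hy u hu⟩

end window

end

end Vale.Agent.P141.H935
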