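import Vale.Agent.P141.H935.Frz

/-!
# P141, line W: the freezing identity and the payment of the births, for the windows of `H297`

The region `ud'` is any region of cells of the windows with the top scale `Λ` below the cell
`(Λ, z)`.  `s_j k = V j Λ - V j k` is the sum of the births inside the window above the cell.
-/

namespace Vale.Agent.P141.H935

open Finset
open Vale.Agent.P141.H315 Vale.Agent.P141.PL.H318 Vale.Agent.P141.H347 Vale.Agent.P141.H8
open Vale.Agent.P141.H297 (Paths tp Sub du V_top_eq)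

noncomputable section

open scoped Classical

variable {X ι α : Type*} {g : Grid X} {J : Type*} [Fintype J] {S : J → CSys g ι}
  {w : ∀ j, LW (S j)} {L : ℕ} {e : ℝ} {F : J → X → ℝ} {gd : ℕ → X → Prop}
  {V H : J → ℕ → X → ℝ} {rs : J → ℕ → X → Prop} {lm : J → ℕ → X → ℝ} {e' C2 : ℝ}
  {gd' ud' : ℕ → X → Prop} {Λ : ℕ} {z : X}

/-- the births inside the window above a cell -/
theorem s_eq (hP : Paths w L e F gd V H rs lm) (hΛ : Λ ≤ L) (j : J) {k : ℕ} (hk : k ≤ Λ) {y u : X}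
    (hw : tp w L gd V H rs e' C2 k y = Λ) (hu : u ∈ g.cube k y) :
    V j Λ u - V j k u = Ps Λ (fun m => birth (S j) m (H j m)) k u := by
  rw [Ps_apply, V_top_eq (e' := e') (C2 := C2) hP j hΛ hk hw hu]
  ring

/-- **one moving slot on a window** (slot 3) -/
theorem win_births3 (nv : NV g α) (hP : Paths w L e F gd V H rs lm) (hΛ : Λ ≤ L)
    (h : Rgn g gd' Λ z ud') (hw : ∀ k y, ud' k y → tp w L gd V H rs e' C2 k y = Λ) (j : J)
    {A B D : ℕ → X → ℝ} {p : ℝ}
    (hpay : ∀ l < Λ, ∀ y ∈ g.cube Λ z, ud' l y → ∀ i, bm (S j) l (H j l) (g.cube l y) i ≠ 0 →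
      T4 nv (Dn g ud' l y) A B (st ((S j).a l i)) D ≤ p * (w j).ω l l y i * cd g l y) :
    T4 nv ud' A B (fun k u => V j Λ u - V j k u) D ≤
      p * Cs g ud' Λ z fun l y => lden (w j) l l (H j l) y := by
  refine le_trans (le_of_eq ?_) (pay_births3 (w := w j) (H := H j) nv h hpay)
  exact T4_congr fun k y hy u hu =>
    ⟨rfl, rfl, s_eq hP hΛ j (h.bel k y hy).1 (hw k y hy) hu, rfl⟩

/-- **one moving slot on a window** (slot 4) -/
theorem win_births4 (nv : NV g α) (hP : Paths w L e F gd V H rs lm) (hΛ : Λ ≤ L)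
    (h : Rgn g gd' Λ z ud') (hw : ∀ k y, ud' k y → tp w L gd V H rs e' C2 k y = Λ) (j : J)
    {A B C : ℕ → X → ℝ} {p : ℝ}
    (hpay : ∀ l < Λ, ∀ y ∈ g.cube Λ z, ud' l y → ∀ i, bm (S j) l (H j l) (g.cube l y) i ≠ 0 →
      T4 nv (Dn g ud' l y) A B C (st ((S j).a l i)) ≤ p * (w j).ω l l y i * cd g l y) :
    T4 nv ud' A B C (fun k u => V j Λ u - V j k u) ≤
      p * Cs g ud' Λ z fun l y => lden (w j) l l (H j l) y := by
  refine le_trans (le_of_eq ?_) (pay_births4 (w := w j) (H := H j) nv h hpay)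
  exact T4_congr fun k y hy u hu =>
    ⟨rfl, rfl, rfl, s_eq hP hΛ j (h.bel k y hy).1 (hw k y hy) hu⟩

/-- **two moving slots on a window**: every birth pays, the other slot is frozen at the birth -/
theorem win_frz (nv : NV g α) (hP : Paths w L e F gd V H rs lm) (hΛ : Λ ≤ L)
    (h : Rgn g gd' Λ z ud') (hw : ∀ k y, ud' k y → tp w L gd V H rs e' C2 k y = Λ) (jx jy : J)
    {A B : ℕ → X → ℝ} {p : ℝ}
    (hpay : ∀ l < Λ, ∀ y ∈ g.cube Λ z, ud' l y → ∀ i, bm (S jx) l (H jx l) (g.cube l y) i ≠ 0 →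
      T4 nv (Dn g ud' l y) A B (st ((S jx).a l i)) (st fun u => V jy Λ u - V jy l u) ≤
        p * (w jx).ω l l y i * cd g l y)
    (hpay' : ∀ l < Λ, ∀ y ∈ g.cube Λ z, ud' l y → ∀ i, bm (S jy) l (H jy l) (g.cube l y) i ≠ 0 →
      T4 nv (Dn g ud' l y) A B (st fun u => V jx Λ u - V jx (l + 1) u) (st ((S jy).a l i)) ≤
        p * (w jy).ω l l y i * cd g l y) :
    T4 nv ud' A B (fun k u => V jx Λ u - V jx k u) (fun k u => V jy Λ u - V jy k u) ≤
      p * Cs g ud' Λ z (fun l y => lden (w jx) l l (H jx l) y + lden (w jy) l l (H jy l) y) := by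
  refine le_trans (le_of_eq ?_) (pay_frz (A := A) (B := B) (w := w jx) (w' := w jy) (H := H jx) (H' := H jy) nv h
    (fun l hl y hy hu i hi => ?_) (fun l hl y hy hu i hi => ?_))
  · exact T4_congr fun k y hy u hu =>
      ⟨rfl, rfl, s_eq hP hΛ jx (h.bel k y hy).1 (hw k y hy) hu,
        s_eq hP hΛ jy (h.bel k y hy).1 (hw k y hy) hu⟩
  · refine le_trans (le_of_eq ?_) (hpay l hl y hy hu i hi)
    refine T4_congr fun k v hv u hu' => ⟨rfl, rfl, rfl, ?_⟩
    exact (s_eq hP hΛ jy hl.le (hw l y hu) (g.cube_subset hv.2.1 hv.2.2 hu')).symm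
  · refine le_trans (le_of_eq ?_) (hpay' l hl y hy hu i hi)
    refine T4_congr fun k v hv u hu' => ⟨rfl, rfl, ?_, rfl⟩
    have h1 : ud' (l + 1) y := h.up l hl y hu
    have h2 : u ∈ g.cube (l + 1) y := g.sub l y (g.cube_subset hv.2.1 hv.2.2 hu')
    exact (s_eq hP hΛ jx (k := l + 1) hl (hw (l + 1) y h1) h2).symm

omit [Fintype J] in
/-- the mass of the births inside a subfamily of the used cells -/
theorem Cs_lden_le {K : ℕ} {R D : ℝ} (hU : Sub S L gd H rs K ud' R D) (hz : ud' K z) (j : J) :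
    Cs g ud' K z (fun l y => lden (w j) l l (H j l) y) ≤ D * cd g K z := by
  refine le_trans ?_ (hU.drop j K le_rfl z hz)
  unfold Cs
  refine sum_le_sum fun l _ => sum_le_sum fun y _ => ?_
  unfold du
  split_ifs
  · exact (lden_self_le (w j) l (H j l) y).trans (Vale.Agent.P141.H297.den_le_dr (S j) l (H j l) y)
  · exact le_rfl

/-- **the births between the window top and a scale above it pay on the window**: `Λ'` is the top
scale of a window which contains the cell `(Λ, z)` (any threshold), `Λ ≤ Λ'` (slot 3) -/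
theorem pay_static3 (nv : NV g α) (hP : Paths w L e F gd V H rs lm) {Λ' : ℕ} (hΛ' : Λ' ≤ L)
    (hΛ : Λ ≤ Λ') (h : Rgn g gd' Λ z ud') (hw : tp w L gd V H rs e' C2 Λ z = Λ') (j : J)
    {A B D : ℕ → X → ℝ} {p : ℝ}
    (hpay : ∀ l, Λ ≤ l → l < Λ' → ∀ i, bm (S j) l (H j l) (g.cube l z) i ≠ 0 →
      T4 nv ud' A B (st ((S j).a l i)) D ≤ p * (w j).ω l Λ z i * cd g Λ z) :
    T4 nv ud' A B (st fun u => V j Λ' u - V j Λ u) D ≤
      p * (∑ l ∈ Ico Λ Λ', lden (w j) l Λ (H j l) z) * cd g Λ z := by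
  have e1 : T4 nv ud' A B (st fun u => V j Λ' u - V j Λ u) D =
      T4 nv ud' A B (st (∑ l ∈ Ico Λ Λ', (1 : ℝ) • ∑ i ∈ (bm (S j) l (H j l) (g.cube l z)).support,
        (bm (S j) l (H j l) (g.cube l z)) i • (S j).a l i)) D := by
    refine T4_congr fun k v hv u hu => ⟨rfl, rfl, ?_, rfl⟩
    obtain ⟨hk, hvz⟩ := h.bel k v hv
    have huz : u ∈ g.cube Λ z := g.cube_subset hk hvz hu
    unfold st
    show V j Λ' u - V j Λ u = _
    rw [V_top_eq (e' := e') (C2 := C2) hP j hΛ' hΛ hw huz, Finset.sum_apply]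
    have e2 : ∀ l ∈ Ico Λ Λ', ((1 : ℝ) • ∑ i ∈ (bm (S j) l (H j l) (g.cube l z)).support,
        (bm (S j) l (H j l) (g.cube l z)) i • (S j).a l i) u = birth (S j) l (H j l) u := by
      intro l hl
      rw [Vale.Agent.P141.H297.birth_sum (S j) l (H j l)
        (g.cube_subset (mem_Ico.1 hl).1 (g.mem l z) huz), Finsupp.sum, one_smul, Finset.sum_apply]
      exact sum_congr rfl fun i _ => rfl
    rw [sum_congr rfl e2]
    ring
  rw [e1]
  refine (T4_sum3 _ A B D _ _).trans ?_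
  rw [mul_sum, sum_mul]
  refine sum_le_sum fun l hl => ?_
  rw [abs_one, one_mul]
  refine (T4_sum3 _ A B D _ _).trans ?_
  unfold lden Finsupp.sum
  rw [mul_sum, sum_mul]
  refine sum_le_sum fun i hi => ?_
  have h1 := mul_le_mul_of_nonneg_left (hpay l (mem_Ico.1 hl).1 (mem_Ico.1 hl).2 i
    (Finsupp.mem_support_iff.1 hi)) (abs_nonneg ((bm (S j) l (H j l) (g.cube l z)) i))
  refine h1.trans (le_of_eq ?_)
  ring

/-- the same in slot 4 -/
theorem pay_static4 (nv : NV g α) (hP : Paths w L e F gd V H rs lm) {Λ' : ℕ} (hΛ' : Λ' ≤ L)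
    (hΛ : Λ ≤ Λ') (h : Rgn g gd' Λ z ud') (hw : tp w L gd V H rs e' C2 Λ z = Λ') (j : J)
    {A B C : ℕ → X → ℝ} {p : ℝ}
    (hpay : ∀ l, Λ ≤ l → l < Λ' → ∀ i, bm (S j) l (H j l) (g.cube l z) i ≠ 0 →
      T4 nv ud' A B C (st ((S j).a l i)) ≤ p * (w j).ω l Λ z i * cd g Λ z) :
    T4 nv ud' A B C (st fun u => V j Λ' u - V j Λ u) ≤
      p * (∑ l ∈ Ico Λ Λ', lden (w j) l Λ (H j l) z) * cd g Λ z := by
  have e1 : T4 nv ud' A B C (st fun u => V j Λ' u - V j Λ u) =
      T4 nv ud' A B C (st (∑ l ∈ Ico Λ Λ', (1 : ℝ) • ∑ i ∈ (bm (S j) l (H j l) (g.cube l z)).support,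
        (bm (S j) l (H j l) (g.cube l z)) i • (S j).a l i)) := by
    refine T4_congr fun k v hv u hu => ⟨rfl, rfl, rfl, ?_⟩
    obtain ⟨hk, hvz⟩ := h.bel k v hv
    have huz : u ∈ g.cube Λ z := g.cube_subset hk hvz hu
    unfold st
    show V j Λ' u - V j Λ u = _
    rw [V_top_eq (e' := e') (C2 := C2) hP j hΛ' hΛ hw huz, Finset.sum_apply]
    have e2 : ∀ l ∈ Ico Λ Λ', ((1 : ℝ) • ∑ i ∈ (bm (S j) l (H j l) (g.cube l z)).support,
        (bm (S j) l (H j l) (g.cube l z)) i • (S j).a l i) u = birth (S j) l (H j l) u := by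
      intro l hl
      rw [Vale.Agent.P141.H297.birth_sum (S j) l (H j l)
        (g.cube_subset (mem_Ico.1 hl).1 (g.mem l z) huz), Finsupp.sum, one_smul, Finset.sum_apply]
      exact sum_congr rfl fun i _ => rfl
    rw [sum_congr rfl e2]
    ring
  rw [e1]
  refine (T4_sum4 _ A B C _ _).trans ?_
  rw [mul_sum, sum_mul]
  refine sum_le_sum fun l hl => ?_
  rw [abs_one, one_mul]
  refine (T4_sum4 _ A B C _ _).trans ?_
  unfold lden Finsupp.sum
  rw [mul_sum, sum_mul]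
  refine sum_le_sum fun i hi => ?_
  have h1 := mul_le_mul_of_nonneg_left (hpay l (mem_Ico.1 hl).1 (mem_Ico.1 hl).2 i
    (Finsupp.mem_support_iff.1 hi)) (abs_nonneg ((bm (S j) l (H j l) (g.cube l z)) i))
  refine h1.trans (le_of_eq ?_)
  ring

end

end Vale.Agent.P141.H935
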