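import Vale.Agent.P141.H935.Two
import Vale.Agent.P141.PL.H855.PayDefs

/-!
# P141, line W, PROC (S4): two moving slots, in the letters of `TR` and `PayU`

The slots `a`, `b` are static and uniform; the slots `m`, `m'` are the births between a cell and the
top of its window.  `two_TR`: any region; `two_TR_win`: a region inside one window.
-/

namespace Vale.Agent.P141.H935

open Finset Function
open Vale.Agent.P141.H315 Vale.Agent.P141.PL.H318 Vale.Agent.P141.H347 Vale.Agent.P141.H8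
open Vale.Agent.P141.H297 (Paths tp Sub du tp_const Mix)
open Vale.Agent.P141.PL.H855 (N4 TR T4_toNV TR_congr PayU)

noncomputable section

open scoped Classical

variable {X α ι κ κ' : Type*} {g : Grid X}

/-! ### The order of the slots -/

/-- the order with the slots `a`, `b`, `m`, `m'` in the positions `0`, `1`, `2`, `3` -/
def ordr (m m' a b : Fin 4) (h : [m, m', a, b].Nodup) : Equiv.Perm (Fin 4) :=
  (Equiv.ofBijective ![a, b, m, m'] (Finite.injective_iff_bijective.1 (by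
    simp only [List.nodup_cons, List.mem_cons, List.not_mem_nil, not_or, or_false,
      List.nodup_nil, and_true, not_false_eq_true] at h
    obtain ⟨⟨h1, h2, h3⟩, ⟨h4, h5⟩, h6⟩ := h
    intro i j hij
    fin_cases i <;> fin_cases j <;> simp_all [eq_comm]))).symm

theorem ordr_symm (m m' a b : Fin 4) (h : [m, m', a, b].Nodup) (i : Fin 4) :
    (ordr m m' a b h).symm i = ![a, b, m, m'] i := rfl

theorem ordr_app (m m' a b : Fin 4) (h : [m, m', a, b].Nodup) (i : Fin 4) :
    ordr m m' a b h (![a, b, m, m'] i) = i := by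
  rw [← ordr_symm m m' a b h i, Equiv.apply_symm_apply]

/-- the total in the two letters -/
theorem T4_ordr (nv : N4 g α) (ud : ℕ → X → Prop) {m m' a b : Fin 4} (h : [m, m', a, b].Nodup)
    (A : Fin 4 → ℕ → X → ℝ) (C D : ℕ → X → ℝ) :
    T4 (nv.toNV (ordr m m' a b h)) ud (A a) (A b) C D = TR nv ud (update (update A m C) m' D) := by
  rw [T4_toNV]
  congr 1
  have hh := h
  simp only [List.nodup_cons, List.mem_cons, List.not_mem_nil, not_or, or_false,
    List.nodup_nil, and_true, not_false_eq_true] at hh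
  obtain ⟨⟨h1, h2, h3⟩, ⟨h4, h5⟩, h6⟩ := hh
  funext j
  obtain ⟨i, rfl⟩ := (ordr m m' a b h).symm.surjective j
  rw [Equiv.apply_symm_apply, ordr_symm]
  fin_cases i
  · show A a = update (update A m C) m' D a
    rw [update_of_ne (Ne.symm h4), update_of_ne (Ne.symm h2)]
  · show A b = update (update A m C) m' D b
    rw [update_of_ne (Ne.symm h5), update_of_ne (Ne.symm h3)]
  · show C = update (update A m C) m' D m
    rw [update_of_ne h1, update_self]
  · show D = update (update A m C) m' D m'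
    rw [update_self]

/-! ### The payments -/

/-- the static families and `update` -/
theorem st_upd (h : Fin 4 → X → ℝ) (m : Fin 4) (Z : X → ℝ) :
    update (fun l => st (h l)) m (st Z) = fun l => st (update h m Z l) := by
  funext l
  by_cases hl : l = m
  · subst hl; rw [update_self, update_self]
  · rw [update_of_ne hl, update_of_ne hl]

/-- a part of a region -/
theorem Rgn.trans' {gd ud ud' : ℕ → X → Prop} {K L : ℕ} {x x' : X} (h : Rgn g gd K x ud)
    (h' : Rgn g ud L x' ud') : Rgn g gd L x' ud' :=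
  ⟨h'.const, h'.up, h'.bel, fun k y hy => h.sub k y (h'.sub k y hy)⟩

/-- **from `PayU` to `PayZ`** -/
theorem payZ_of_payU {nv : N4 g α} {gd ud : ℕ → X → Prop} {L K : ℕ} {x : X}
    {S1 S2 : Fin 4 → CSys g ι} {w1 : ∀ m, LW (S1 m)} {w2 : ∀ m, LW (S2 m)}
    {UA : Fin 4 → CSys g κ} {UB : Fin 4 → CSys g κ'} {CA CB EA EB EZ c : ℝ}
    (h1 : PayU nv gd L w1 UA UB CA CB EA EB EZ c) (h2 : PayU nv gd L w2 UA UB CA CB EA EB EZ c)
    (hR : Rgn g gd K x ud) {m m' a b : Fin 4} (hn : [m, m', a, b].Nodup) {h : Fin 4 → X → ℝ}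
    (ha : En g ud (h a) EA) (hua : Un (UA a) CA ud (h a)) (hb : En g ud (h b) EB)
    (hub : Un (UB b) CB ud (h b)) :
    PayZ (nv.toNV (ordr m m' a b hn)) L ud (st (h a)) (st (h b)) (w1 m) (w2 m') EZ c := by
  have hn' := hn
  simp only [List.nodup_cons, List.mem_cons, List.not_mem_nil, not_or, or_false,
    List.nodup_nil, and_true, not_false_eq_true] at hn'
  obtain ⟨⟨n1, n2, n3⟩, ⟨n4, n5⟩, n6⟩ := hn'
  constructor
  · intro L' x' ud' hR' hx' Z eZ hz0 hz1 hZ j hj hjL i
    have e1 := T4_ordr nv ud' hn (fun l => st (h l)) (st ((S1 m).a j i)) (st Z)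
    rw [update_comm n1, st_upd] at e1
    rw [e1]
    refine h1 m a b m' ?_ L' x' ud' (hj.trans hjL) (Rgn.trans' hR hR') hx' (update h m' Z)
      ?_ ?_ ?_ ?_ eZ hz0 hz1 ?_ j hj hjL i
    · simp only [List.nodup_cons, List.mem_cons, List.not_mem_nil, not_or, or_false,
        List.nodup_nil, and_true, not_false_eq_true]
      exact ⟨⟨n2, n3, n1⟩, ⟨n6, Ne.symm n4⟩, Ne.symm n5⟩
    · rw [update_of_ne (Ne.symm n4)]; exact fun k y hy => ha k y (hR'.sub k y hy)
    · rw [update_of_ne (Ne.symm n4)]; exact fun k y hy => hua k y (hR'.sub k y hy)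
    · rw [update_of_ne (Ne.symm n5)]; exact fun k y hy => hb k y (hR'.sub k y hy)
    · rw [update_of_ne (Ne.symm n5)]; exact fun k y hy => hub k y (hR'.sub k y hy)
    · rw [update_self]; exact hZ
  · intro L' x' ud' hR' hx' Z eZ hz0 hz1 hZ j hj hjL i
    have e1 := T4_ordr nv ud' hn (fun l => st (h l)) (st Z) (st ((S2 m').a j i))
    rw [st_upd] at e1
    rw [e1]
    refine h2 m' a b m ?_ L' x' ud' (hj.trans hjL) (Rgn.trans' hR hR') hx' (update h m Z)
      ?_ ?_ ?_ ?_ eZ hz0 hz1 ?_ j hj hjL i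
    · simp only [List.nodup_cons, List.mem_cons, List.not_mem_nil, not_or, or_false,
        List.nodup_nil, and_true, not_false_eq_true]
      exact ⟨⟨n4, n5, Ne.symm n1⟩, ⟨n6, Ne.symm n2⟩, Ne.symm n3⟩
    · rw [update_of_ne (Ne.symm n2)]; exact fun k y hy => ha k y (hR'.sub k y hy)
    · rw [update_of_ne (Ne.symm n2)]; exact fun k y hy => hua k y (hR'.sub k y hy)
    · rw [update_of_ne (Ne.symm n3)]; exact fun k y hy => hb k y (hR'.sub k y hy)
    · rw [update_of_ne (Ne.symm n3)]; exact fun k y hy => hub k y (hR'.sub k y hy)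
    · rw [update_self]; exact hZ

/-! ### The result -/

variable {J : Type*} [Fintype J] {S : J → CSys g ι}
  {w : ∀ j, LW (S j)} {L : ℕ} {e : ℝ} {F : J → X → ℝ} {gd : ℕ → X → Prop}
  {V H : J → ℕ → X → ℝ} {rs : J → ℕ → X → Prop} {lm : J → ℕ → X → ℝ} {C2 : ℝ}

/-- the constant -/
def K4 (B0 C2 R c D : ℝ) (n : ℕ) : ℝ :=
  4 * (c * √(8 * (B0 * C2 + 3)) * ((16 + 6 * B0 + 6 * B0 * n * R + 18 * B0 * n) * D))

/-- **Two moving slots**, any region: the slot `l` follows the path `jp l`. -/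
theorem two_TR {nv : N4 g α} {gd' ud : ℕ → X → Prop} {K : ℕ} {x : X}
    (hP : Paths w L e F gd V H rs lm) {Cg : ℝ} (hM : ∀ j, Mix (S j) Cg) (hCg : 0 ≤ Cg) {B0 : ℝ}
    (hB : ∀ k x, cd g (k + 1) x ≤ B0 * cd g k x)
    (hC2 : 4 * Fintype.card J * (1 + 2 * Cg) ≤ C2) {e0 : ℝ} (he0 : 0 < e0) {R D : ℝ}
    (hR0 : 0 ≤ R) (hD : e0 ≤ D) (hR : Rgn g gd' K x ud) (hx : ud K x)
    (hU : Sub S L gd H rs K ud R D) {jp : Fin 4 → J}
    {UA : Fin 4 → CSys g κ} {UB : Fin 4 → CSys g κ'} {CA CB EA EB EZ c : ℝ} (hc : 0 ≤ c)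
    (hpay : PayU nv gd' L (fun l => w (jp l)) UA UB CA CB EA EB EZ c) {m m' a b : Fin 4}
    (hn : [m, m', a, b].Nodup) {h : Fin 4 → X → ℝ} (ha : En g ud (h a) EA)
    (hua : Un (UA a) CA ud (h a)) (hb : En g ud (h b) EB) (hub : Un (UB b) CB ud (h b))
    (hEZ : 8 * (B0 * C2 + 3) * e0 ≤ EZ) :
    TR nv ud (update (update (fun l => st (h l)) m (sv w L gd V H rs C2 e0 (jp m))) m'
        (sv w L gd V H rs C2 e0 (jp m'))) ≤
      K4 B0 C2 R c D (Fintype.card J) * √e0 * cd g K x := by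
  have hp := payZ_of_payU (nv := nv) (gd := gd') (ud := ud) (L := L) (K := K) (x := x) hpay hpay
    hR hn ha hua hb hub
  have key := two_moving (a := jp m) (b := jp m') hP hM hCg hB hC2 he0 hR0 hD hc hR hx hU hp hEZ
  rw [T4_ordr nv ud hn (fun l => st (h l))] at key
  refine key.trans (le_of_eq ?_)
  unfold K4
  ring

/-- **Two moving slots**, a region inside one window. -/
theorem two_TR_win {nv : N4 g α} {gd' ud : ℕ → X → Prop} {K : ℕ} {x : X}
    (hP : Paths w L e F gd V H rs lm) {Cg : ℝ} (hM : ∀ j, Mix (S j) Cg) (hCg : 0 ≤ Cg) {B0 : ℝ}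
    (hB : ∀ k x, cd g (k + 1) x ≤ B0 * cd g k x)
    (hC2 : 4 * Fintype.card J * (1 + 2 * Cg) ≤ C2) {e0 : ℝ} (he0 : 0 < e0) {R D : ℝ}
    (hR0 : 0 ≤ R) (hD : e0 ≤ D) (hR : Rgn g gd' K x ud) (hx : ud K x)
    (hU : Sub S L gd H rs K ud R D) {jp : Fin 4 → J}
    {UA : Fin 4 → CSys g κ} {UB : Fin 4 → CSys g κ'} {CA CB EA EB EZ c : ℝ} (hc : 0 ≤ c)
    (hpay : PayU nv gd' L (fun l => w (jp l)) UA UB CA CB EA EB EZ c) {m m' a b : Fin 4}
    (hn : [m, m', a, b].Nodup) {h : Fin 4 → X → ℝ} (ha : En g ud (h a) EA)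
    (hua : Un (UA a) CA ud (h a)) (hb : En g ud (h b) EB) (hub : Un (UB b) CB ud (h b))
    (hEZ : 8 * (B0 * C2 + 3) * e0 ≤ EZ) {Λ0 : ℕ}
    (hw : ∀ k y, ud k y → tp w L gd V H rs e0 C2 k y = Λ0) :
    TR nv ud (update (update (fun l => st (h l)) m
        (fun k u => V (jp m) Λ0 u - V (jp m) k u)) m'
        (fun k u => V (jp m') Λ0 u - V (jp m') k u)) ≤
      K4 B0 C2 R c D (Fintype.card J) * √e0 * cd g K x := by
  refine le_trans (le_of_eq ?_) (two_TR (m := m) (m' := m') hP hM hCg hB hC2 he0 hR0 hD hR hx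
    hU hc hpay hn ha hua hb hub hEZ)
  have key : ∀ j k y, ud k y → ∀ u ∈ g.cube k y,
      V j Λ0 u - V j k u = sv w L gd V H rs C2 e0 j k u := by
    intro j k y hy u hu
    unfold sv
    rw [tp_const w L gd V H rs e0 C2 ((hR.bel k y hy).1.trans hU.le) hu, hw k y hy]
  refine TR_congr fun k y hy l u hu => ?_
  by_cases h1 : l = m'
  · subst h1
    rw [update_self, update_self]
    exact key _ k y hy u hu
  · rw [update_of_ne h1, update_of_ne h1]
    by_cases h2 : l = m
    · subst h2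
      rw [update_self, update_self]
      exact key _ k y hy u hu
    · rw [update_of_ne h2, update_of_ne h2]

end

end Vale.Agent.P141.H935
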