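import Vale.Agent.P141.H606.Reg
import Vale.Agent.P141.H8.Step
import Vale.Agent.P141.H911.Fibre
import Vale.Agent.P141.PL.H855.StepDefs

/-!
# P141, line W, END (E-AG): a block slot on a line

`u ↦ y0 + sg u` is the point of a slot on the line of one variable, the other variables are fixed.
`Xs k u`: the moving function of the slot at the point, cut by the used cells.  It satisfies the
hypotheses `off`, `hX`, `hX'`, `hT` of `H606.Reg1`, for the used cells `Vs` and the touched cells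
`Ts` (tops and exits); the measure of the touched cells is at most twice the packing.
-/

namespace Vale.Agent.P141.H935

open Finset
open Vale.Agent.P141.PL.H315 (avg)
open Vale.Agent.P141.H315 Vale.Agent.P141.PL.H318 Vale.Agent.P141.H347 Vale.Agent.P141.H8
open Vale.Agent.P141.PL.H95 (gr mem_gr card_gr)
open Vale.Agent.P141.H337 (cel ivm card_ivm ms)
open Vale.Agent.P141.H606 (TC LV Reg1)

noncomputable section

open scoped Classical

/-- the slot at the points of a line, cut by the used cells -/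
def Xs (ud : ℕ → ℤ → Prop) (t : ℕ → ℤ → ℕ) (F : ℕ → ℤ → ℝ) (y0 sg : ℤ) (k : ℕ) (u : ℤ) : ℝ :=
  if ud k (y0 + sg * u) then F (t k (y0 + sg * u)) (y0 + sg * u) else 0

/-- tops and exits -/
def CH (ud : ℕ → ℤ → Prop) (t : ℕ → ℤ → ℕ) (k : ℕ) (y : ℤ) : Prop :=
  (ud k y ∧ t k y = k) ∨ (¬ ud k y ∧ ud (k + 1) y)

/-- the used cells of the line -/
def Vs (ud : ℕ → ℤ → Prop) (y0 sg : ℤ) (K : ℕ) (b0 : ℤ) (k : ℕ) : Finset ℤ :=
  (cel K b0 k).filter fun b => ∃ u ∈ ivm k b, ud k (y0 + sg * u)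

/-- the touched cells of the line -/
def Ts (ud : ℕ → ℤ → Prop) (t : ℕ → ℤ → ℕ) (y0 sg : ℤ) (K : ℕ) (b0 : ℤ) (k : ℕ) : Finset ℤ :=
  (cel K b0 k).filter fun b => ∃ u ∈ ivm k b, CH ud t k (y0 + sg * u)

variable {s : ℤ} {gd ud : ℕ → ℤ → Prop} {Λ : ℕ} {x0 : ℤ} {t : ℕ → ℤ → ℕ} {F : ℕ → ℤ → ℝ}
  {y0 sg : ℤ} {K : ℕ} {b0 : ℤ} {e : ℝ}

/-! ### Geometry -/

theorem mem_ivm {k : ℕ} {b u : ℤ} : u ∈ ivm k b ↔ 2 ^ k * b ≤ u ∧ u < 2 ^ k * b + 2 ^ k := by
  unfold ivm; rw [mem_Ico]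

/-- an interval shorter than the cells meets at most two cells -/
theorem two_cubes {j : ℕ} {p q v : ℤ} (hpq : |p - q| < 2 ^ (j + 7))
    (hv : (p ≤ v ∧ v ≤ q) ∨ (q ≤ v ∧ v ≤ p)) :
    v ∈ (gr 7 s).cube j p ∨ v ∈ (gr 7 s).cube j q := by
  rw [mem_gr, mem_gr]
  have hM : (0 : ℤ) < 2 ^ (j + 7) := by positivity
  have key : ∀ a b c : ℤ, a ≤ b → b ≤ c → c - a < 2 ^ (j + 7) →
      b / 2 ^ (j + 7) = a / 2 ^ (j + 7) ∨ b / 2 ^ (j + 7) = c / 2 ^ (j + 7) := by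
    intro a b c h1 h2 h3
    have h4 := Int.ediv_le_ediv hM h1
    have h5 := Int.ediv_le_ediv hM h2
    have h6 : c / 2 ^ (j + 7) ≤ a / 2 ^ (j + 7) + 1 := by
      have h7 : (a + 2 ^ (j + 7)) / 2 ^ (j + 7) = a / 2 ^ (j + 7) + 1 := by
        rw [Int.add_ediv_of_dvd_right (dvd_refl _), Int.ediv_self hM.ne']
      rw [← h7]
      exact Int.ediv_le_ediv hM (by linarith)
    omega
  obtain ⟨h1, h2⟩ := abs_lt.1 hpq
  rcases hv with ⟨h3, h4⟩ | ⟨h3, h4⟩
  · exact key _ _ _ (by linarith) (by linarith) (by linarith)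
  · exact (key _ _ _ (by linarith : q + s ≤ v + s) (by linarith) (by linarith)).symm

/-- the points of a cell of the line lie in two cells -/
theorem line_cubes {k j : ℕ} (hkj : k ≤ j) (hsg : |sg| ≤ 3) {b u : ℤ} (hu : u ∈ ivm k b) :
    y0 + sg * u ∈ (gr 7 s).cube j (y0 + sg * (2 ^ k * b)) ∨
      y0 + sg * u ∈ (gr 7 s).cube j (y0 + sg * (2 ^ k * b + 2 ^ k - 1)) := by
  rw [mem_ivm] at hu
  have hp : (0 : ℤ) < 2 ^ k := by positivity
  have hpj : (2 : ℤ) ^ k ≤ 2 ^ j := pow_le_pow_right₀ (by norm_num) hkj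
  obtain ⟨hs1, hs2⟩ := abs_le.1 hsg
  refine two_cubes ?_ ?_
  · have : y0 + sg * (2 ^ k * b) - (y0 + sg * (2 ^ k * b + 2 ^ k - 1)) = -(sg * (2 ^ k - 1)) := by
      ring
    rw [this, abs_neg, abs_mul, abs_of_nonneg (by linarith : (0 : ℤ) ≤ 2 ^ k - 1), pow_add]
    nlinarith
  · rcases le_total 0 sg with h | h
    · left; constructor <;> nlinarith
    · right; constructor <;> nlinarith

/-! ### Energies -/

/-- the slot as a function of the point -/
def Ys (ud : ℕ → ℤ → Prop) (t : ℕ → ℤ → ℕ) (F : ℕ → ℤ → ℝ) (k : ℕ) (y : ℤ) : ℝ :=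
  if ud k y then F (t k y) y else 0

theorem Xs_eq (k : ℕ) (u : ℤ) : Xs ud t F y0 sg k u = Ys ud t F k (y0 + sg * u) := rfl

/-- the energy of the slot on one cell -/
theorem cube_en (hR : Rgn (gr 7 s) gd Λ x0 ud) (hl : Lab (gr 7 s) Λ t)
    (hen : ∀ k y, ud k y → dot ((gr 7 s).cube k y) (F (t k y)) (F (t k y)) ≤
      e * cd (gr 7 s) k y) (he : 0 ≤ e) (k : ℕ) (y : ℤ) :
    ∑ v ∈ (gr 7 s).cube k y, Ys ud t F k v ^ 2 ≤ e * 2 ^ (k + 7) := by
  by_cases h : ud k y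
  · have h1 := hen k y h
    have h2 : cd (gr 7 s) k y = 2 ^ (k + 7) := by
      unfold cd; rw [card_gr]; push_cast; ring
    rw [h2] at h1
    refine le_trans (le_of_eq ?_) h1
    unfold dot
    refine sum_congr rfl fun v hv => ?_
    have h3 : ud k v := (hR.const k y v hv).2 h
    unfold Ys
    rw [if_pos h3, hl.const k (hR.bel k y h).1 y v hv]
    ring
  · rw [sum_eq_zero]
    · positivity
    · intro v hv
      have h3 : ¬ ud k v := fun h' => h ((hR.const k y v hv).1 h')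
      unfold Ys
      rw [if_neg h3]
      ring

/-- the energy of the slot of the scale `j` on a cell of the line of the scale `k ≤ j` -/
theorem line_en (hR : Rgn (gr 7 s) gd Λ x0 ud) (hl : Lab (gr 7 s) Λ t)
    (hen : ∀ k y, ud k y → dot ((gr 7 s).cube k y) (F (t k y)) (F (t k y)) ≤
      e * cd (gr 7 s) k y) (he : 0 ≤ e) (hs0 : sg ≠ 0) (hsg : |sg| ≤ 3) {k j : ℕ} (hkj : k ≤ j)
    (b : ℤ) : ∑ u ∈ ivm k b, Xs ud t F y0 sg j u ^ 2 ≤ 2 * (e * 2 ^ (j + 7)) := by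
  have hinj : Set.InjOn (fun u : ℤ => y0 + sg * u) (ivm k b) := by
    intro u _ v _ h
    have h' : sg * u = sg * v := by
      have : y0 + sg * u = y0 + sg * v := h
      linarith
    exact mul_left_cancel₀ hs0 h'
  have e1 : ∑ u ∈ ivm k b, Xs ud t F y0 sg j u ^ 2 =
      ∑ v ∈ (ivm k b).image (fun u : ℤ => y0 + sg * u), Ys ud t F j v ^ 2 := by
    rw [sum_image fun x hx y hy h => hinj hx hy h]
    rfl
  rw [e1]
  have h1 := cube_en hR hl hen he j (y0 + sg * (2 ^ k * b))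
  have h2 := cube_en hR hl hen he j (y0 + sg * (2 ^ k * b + 2 ^ k - 1))
  have h3 : ∑ v ∈ (ivm k b).image (fun u : ℤ => y0 + sg * u), Ys ud t F j v ^ 2 ≤
      ∑ v ∈ (gr 7 s).cube j (y0 + sg * (2 ^ k * b)) ∪
        (gr 7 s).cube j (y0 + sg * (2 ^ k * b + 2 ^ k - 1)), Ys ud t F j v ^ 2 := by
    refine sum_le_sum_of_subset_of_nonneg ?_ fun _ _ _ => sq_nonneg _
    intro v hv
    obtain ⟨u, hu, rfl⟩ := mem_image.1 hv
    exact mem_union.2 (line_cubes hkj hsg hu)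
  have h4 := sum_union_inter (s₁ := (gr 7 s).cube j (y0 + sg * (2 ^ k * b)))
    (s₂ := (gr 7 s).cube j (y0 + sg * (2 ^ k * b + 2 ^ k - 1))) (f := fun v => Ys ud t F j v ^ 2)
  have h5 : 0 ≤ ∑ v ∈ (gr 7 s).cube j (y0 + sg * (2 ^ k * b)) ∩
      (gr 7 s).cube j (y0 + sg * (2 ^ k * b + 2 ^ k - 1)), Ys ud t F j v ^ 2 :=
    sum_nonneg fun _ _ => sq_nonneg _
  linarith

theorem avg_en (hR : Rgn (gr 7 s) gd Λ x0 ud) (hl : Lab (gr 7 s) Λ t)
    (hen : ∀ k y, ud k y → dot ((gr 7 s).cube k y) (F (t k y)) (F (t k y)) ≤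
      e * cd (gr 7 s) k y) (he : 0 ≤ e) (hs0 : sg ≠ 0) (hsg : |sg| ≤ 3) (k : ℕ) (b : ℤ) :
    avg (ivm k b) (fun u => Xs ud t F y0 sg k u ^ 2) ≤ 256 * e := by
  have h1 := line_en (y0 := y0) hR hl hen he hs0 hsg (le_refl k) b
  unfold avg
  rw [card_ivm]
  push_cast
  have hp : (0 : ℝ) < 2 ^ k := by positivity
  rw [inv_mul_le_iff₀ hp]
  refine h1.trans (le_of_eq ?_)
  rw [pow_add]; ring

theorem avg_en' (hR : Rgn (gr 7 s) gd Λ x0 ud) (hl : Lab (gr 7 s) Λ t)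
    (hen : ∀ k y, ud k y → dot ((gr 7 s).cube k y) (F (t k y)) (F (t k y)) ≤
      e * cd (gr 7 s) k y) (he : 0 ≤ e) (hs0 : sg ≠ 0) (hsg : |sg| ≤ 3) (k : ℕ) (b : ℤ) :
    avg (ivm k b) (fun u => Xs ud t F y0 sg (k + 1) u ^ 2) ≤ 512 * e := by
  have h1 := line_en (y0 := y0) hR hl hen he hs0 hsg (Nat.le_succ k) b
  unfold avg
  rw [card_ivm]
  push_cast
  have hp : (0 : ℝ) < 2 ^ k := by positivity
  rw [inv_mul_le_iff₀ hp]
  refine h1.trans (le_of_eq ?_)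
  rw [show k + 1 + 7 = k + 8 by omega, pow_add]; ring

/-! ### The touched cells -/

theorem Xs_step (hR : Rgn (gr 7 s) gd Λ x0 ud) (hl : Lab (gr 7 s) Λ t) {k : ℕ} (hk : k < Λ)
    {u : ℤ} (h : ¬ CH ud t k (y0 + sg * u)) :
    Xs ud t F y0 sg (k + 1) u = Xs ud t F y0 sg k u := by
  unfold CH at h
  push Not at h
  obtain ⟨h1, h2⟩ := h
  unfold Xs
  by_cases h3 : ud k (y0 + sg * u)
  · have h4 := h1 h3
    have h5 : ud (k + 1) (y0 + sg * u) := hR.up k hk _ h3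
    have h6 := hl.ge k hk.le (y0 + sg * u)
    rw [if_pos h3, if_pos h5, hl.btw k hk.le _ (k + 1) (by omega) (by omega)]
  · rw [if_neg h3, if_neg (h2 h3)]

theorem Xs_touch (hR : Rgn (gr 7 s) gd Λ x0 ud) (hl : Lab (gr 7 s) Λ t) (hK : K ≤ Λ) {k : ℕ}
    (hk : k < K) {b : ℤ} (hb : b ∈ cel K b0 k) (hT : b ∉ Ts ud t y0 sg K b0 k) :
    ∀ u ∈ ivm k b, Xs ud t F y0 sg (k + 1) u = Xs ud t F y0 sg k u := by
  intro u hu
  refine Xs_step hR hl (by omega) fun h => hT ?_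
  unfold Ts
  exact mem_filter.2 ⟨hb, u, hu, h⟩

theorem Xs_off {k : ℕ} {b : ℤ} (hb : b ∈ cel K b0 k) (hV : b ∉ Vs ud y0 sg K b0 k) :
    ∀ u ∈ ivm k b, Xs ud t F y0 sg k u = 0 := by
  intro u hu
  unfold Xs
  rw [if_neg fun h => hV ?_]
  unfold Vs
  exact mem_filter.2 ⟨hb, u, hu, h⟩

/-- a cell of the region meets few cells of the line -/
theorem count_cells (hs0 : sg ≠ 0) {k : ℕ} {v : ℤ} (S : Finset ℤ)
    (h : ∀ b ∈ S, ∃ u ∈ ivm k b, y0 + sg * u ∈ (gr 7 s).cube k v) : S.card ≤ 129 := by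
  rcases S.eq_empty_or_nonempty with h0 | h0
  · rw [h0]; simp
  · obtain ⟨u1, hu1, hv1⟩ := h _ (S.min'_mem h0)
    set b1 := S.min' h0 with hb1
    have hsub : S ⊆ Icc b1 (b1 + 128) := by
      intro b hb
      obtain ⟨u, hu, hv⟩ := h b hb
      rw [mem_Icc]
      refine ⟨S.min'_le b hb, ?_⟩
      rw [mem_ivm] at hu hu1
      rw [mem_gr] at hv hv1
      have hM : (0 : ℤ) < 2 ^ (k + 7) := by positivity
      have hp : (0 : ℤ) < 2 ^ k := by positivity
      have e1 := Int.emod_add_mul_ediv (y0 + sg * u + s) (2 ^ (k + 7))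
      have e2 := Int.emod_add_mul_ediv (y0 + sg * u1 + s) (2 ^ (k + 7))
      have r1 := Int.emod_nonneg (y0 + sg * u + s) hM.ne'
      have r2 := Int.emod_lt_of_pos (y0 + sg * u + s) hM
      have r3 := Int.emod_nonneg (y0 + sg * u1 + s) hM.ne'
      have r4 := Int.emod_lt_of_pos (y0 + sg * u1 + s) hM
      rw [hv] at e1
      rw [hv1] at e2
      have h5 : |sg * (u - u1)| < 2 ^ (k + 7) := by
        rw [abs_lt]; constructor <;> nlinarith
      rw [abs_mul] at h5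
      have h6 : 1 ≤ |sg| := Int.one_le_abs hs0
      have h7 : u - u1 < 2 ^ (k + 7) := by
        have := le_abs_self (u - u1)
        nlinarith [abs_nonneg (u - u1)]
      by_contra hcon
      push Not at hcon
      have h8 : b1 + 129 ≤ b := by omega
      have h9 : (2 : ℤ) ^ k * (b1 + 129) ≤ 2 ^ k * b := mul_le_mul_of_nonneg_left h8 hp.le
      rw [pow_add] at h7
      nlinarith
    have := card_le_card hsub
    rw [Int.card_Icc] at this
    have e : b1 + 128 + 1 - b1 = 129 := by ring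
    rw [e] at this
    simpa using this

/-- the touched cells of one scale -/
theorem touch_one (hR : Rgn (gr 7 s) gd Λ x0 ud) (hl : Lab (gr 7 s) Λ t) (hs0 : sg ≠ 0) {k : ℕ}
    (hk : k < Λ) : ∑ _b ∈ Ts ud t y0 sg K b0 k, (2 : ℝ) ^ k ≤
      2 * ∑ v ∈ (gr 7 s).cube Λ x0, if CH ud t k v then (1 : ℝ) else 0 := by
  -- the charged cells
  have hch : ∀ y v, v ∈ (gr 7 s).cube k y → CH ud t k y → CH ud t k v := by
    intro y v hv h
    unfold CH at h ⊢
    have h1 := hR.const k y v hv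
    have h2 := hR.const (k + 1) y v ((gr 7 s).sub k y hv)
    have h3 := hl.const k hk.le y v hv
    rw [h1, h2, h3]
    exact h
  have hbel : ∀ v, CH ud t k v → v ∈ (gr 7 s).cube Λ x0 := by
    intro v h
    rcases h with h | h
    · exact (hR.bel k v h.1).2
    · exact (hR.bel (k + 1) v h.2).2
  set T := Ts ud t y0 sg K b0 k with hT
  have hw : ∀ b ∈ T, ∃ y, CH ud t k y ∧ ∃ u ∈ ivm k b, y0 + sg * u = y := by
    intro b hb
    rw [hT] at hb
    unfold Ts at hb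
    obtain ⟨_, u, hu, h⟩ := mem_filter.1 hb
    exact ⟨_, h, u, hu, rfl⟩
  choose! y hy1 hy2 using hw
  have h1 : ∀ b ∈ T, (2 : ℝ) ^ k = (128 : ℝ)⁻¹ *
      ∑ v ∈ (gr 7 s).cube Λ x0, if v ∈ (gr 7 s).cube k (y b) then (1 : ℝ) else 0 := by
    intro b hb
    rw [sum_ite_mem, sum_const, nsmul_eq_mul, mul_one]
    have e1 : (gr 7 s).cube Λ x0 ∩ (gr 7 s).cube k (y b) = (gr 7 s).cube k (y b) := by
      refine inter_eq_right.2 fun v hv => ?_
      exact hbel v (hch _ _ hv (hy1 b hb))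
    rw [e1, card_gr]
    push_cast
    rw [pow_add]
    ring
  rw [sum_congr rfl h1, ← mul_sum, sum_comm]
  have h2 : ∀ v ∈ (gr 7 s).cube Λ x0,
      ∑ b ∈ T, (if v ∈ (gr 7 s).cube k (y b) then (1 : ℝ) else 0) ≤
        129 * if CH ud t k v then (1 : ℝ) else 0 := by
    intro v _
    by_cases hv : CH ud t k v
    · rw [if_pos hv, mul_one, ← sum_filter, sum_const, nsmul_eq_mul, mul_one]
      have := count_cells (s := s) (y0 := y0) (sg := sg) hs0 (k := k) (v := v)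
        (T.filter fun b => v ∈ (gr 7 s).cube k (y b)) (fun b hb => by
          obtain ⟨hb1, hb2⟩ := mem_filter.1 hb
          obtain ⟨u, hu, hyu⟩ := hy2 b hb1
          refine ⟨u, hu, ?_⟩
          rw [hyu, mem_gr]
          rw [mem_gr] at hb2
          exact hb2.symm)
      exact_mod_cast this
    · rw [if_neg hv, mul_zero]
      refine le_of_eq (sum_eq_zero fun b hb => ?_)
      rw [if_neg fun h => hv (hch _ _ h (hy1 b hb))]
  have h3 := sum_le_sum h2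
  rw [← mul_sum] at h3
  have h4 : 0 ≤ ∑ v ∈ (gr 7 s).cube Λ x0, if CH ud t k v then (1 : ℝ) else 0 :=
    sum_nonneg fun _ _ => by split_ifs <;> norm_num
  nlinarith

/-- **The measure of the touched cells.** -/
theorem TC_le (hR : Rgn (gr 7 s) gd Λ x0 ud) (hl : Lab (gr 7 s) Λ t) (hs0 : sg ≠ 0)
    (hK : K ≤ Λ) : TC (Ts ud t y0 sg K b0) K b0 ≤
      2 * (tops (gr 7 s) ud t Λ x0 + cd (gr 7 s) Λ x0) := by
  unfold TC
  have h1 : ∀ k ∈ range K, ∑ _b ∈ (cel K b0 k).filter (· ∈ Ts ud t y0 sg K b0 k), (2 : ℝ) ^ k ≤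
      2 * ∑ v ∈ (gr 7 s).cube Λ x0, if CH ud t k v then (1 : ℝ) else 0 := by
    intro k hk
    have hk' := mem_range.1 hk
    refine le_trans (sum_le_sum_of_subset_of_nonneg (fun b hb => (mem_filter.1 hb).2)
      fun _ _ _ => by positivity) (touch_one hR hl hs0 (by omega))
  refine (sum_le_sum h1).trans ?_
  rw [← mul_sum]
  refine mul_le_mul_of_nonneg_left ?_ (by norm_num)
  have h2 : ∀ k ∈ range K, ∑ v ∈ (gr 7 s).cube Λ x0, (if CH ud t k v then (1 : ℝ) else 0) ≤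
      ∑ v ∈ (gr 7 s).cube Λ x0, (if ud k v ∧ t k v = k then (1 : ℝ) else 0) +
      ∑ v ∈ (gr 7 s).cube Λ x0, (if ¬ ud k v ∧ ud (k + 1) v then (1 : ℝ) else 0) := by
    intro k _
    rw [← sum_add_distrib]
    refine sum_le_sum fun v _ => ?_
    unfold CH
    by_cases a1 : ud k v ∧ t k v = k
    · rw [if_pos (Or.inl a1), if_pos a1]
      split_ifs <;> norm_num
    · by_cases a2 : ¬ ud k v ∧ ud (k + 1) v
      · rw [if_pos (Or.inr a2), if_pos a2, if_neg a1]; norm_num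
      · rw [if_neg (not_or.2 ⟨a1, a2⟩), if_neg a1, if_neg a2]; norm_num
  refine (sum_le_sum h2).trans ?_
  rw [sum_add_distrib]
  refine add_le_add ?_ ?_
  · unfold tops
    refine sum_le_sum_of_subset_of_nonneg (fun k hk => ?_) fun _ _ _ =>
      sum_nonneg fun _ _ => by split_ifs <;> norm_num
    have := mem_range.1 hk
    exact mem_range.2 (by omega)
  · rw [sum_comm]
    unfold cd
    refine (sum_le_card_nsmul _ _ 1 fun v _ => ?_).trans (by simp)
    -- at most one exit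
    have hup : ∀ i j, i ≤ j → j ≤ Λ → ud i v → ud j v := by
      intro i j hij hj hi
      induction j, hij using Nat.le_induction with
      | base => exact hi
      | succ j _ ih => exact hR.up j (by omega) v (ih (by omega))
    by_cases hex : ∃ k ∈ range K, ¬ ud k v ∧ ud (k + 1) v
    · obtain ⟨k0, hk0, h0⟩ := hex
      have hk0' := mem_range.1 hk0
      rw [sum_eq_single k0]
      · rw [if_pos h0]
      · intro k hk hne
        have hk' := mem_range.1 hk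
        refine if_neg fun h => ?_
        rcases lt_or_gt_of_ne hne with hlt | hgt
        · exact h0.1 (hup (k + 1) k0 hlt (by omega) h.2)
        · exact h.1 (hup (k0 + 1) k hgt (by omega) h0.2)
      · intro h; exact absurd hk0 h
    · rw [sum_eq_zero]
      · norm_num
      · intro k hk
        exact if_neg fun h => hex ⟨k, hk, h⟩

/-- the used leaves -/
theorem LV_le (V : ℕ → Finset ℤ) (K : ℕ) (b0 : ℤ) : LV V K b0 ≤ 2 ^ K := by
  unfold LV
  have h1 := Vale.Agent.P141.H337.card_cel (K := K) (b0 := b0) (Nat.zero_le K)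
  rw [pow_zero, one_mul] at h1
  rw [← h1]
  exact_mod_cast card_le_card (filter_subset _ _)

/-- **The hypotheses of `Reg1` for a block slot.** -/
theorem reg1_slot {Ω : Type*} [DecidableEq Ω] (hR : Rgn (gr 7 s) gd Λ x0 ud)
    (hl : Lab (gr 7 s) Λ t)
    (hen : ∀ k y, ud k y → dot ((gr 7 s).cube k y) (F (t k y)) (F (t k y)) ≤
      e * cd (gr 7 s) k y) (he : 0 ≤ e) (hs0 : sg ≠ 0) (hsg : |sg| ≤ 3) (hK : K ≤ Λ)
    {L : ℝ} (hL0 : 0 ≤ L) {c : Ω → ℤ → ℝ} {A : ℕ → ℤ → Finset Ω} {h : ℕ → ℤ → ℝ}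
    (hh : ∀ k < K, ∀ b ∈ cel K b0 (k + 1), (∀ x ∈ ivm k (2 * b), h (k + 1) x = 1) ∧
      ∀ x ∈ ivm k (2 * b + 1), h (k + 1) x = -1)
    (hL : ∀ k < K, ∀ b ∈ cel K b0 (k + 1), b ∈ Vs ud y0 sg K b0 (k + 1) →
      ms c (A (k + 1) b) (ivm (k + 1) b) ≤ L)
    (hL' : ∀ k < K, ∀ b ∈ cel K b0 k, b ∈ Vs ud y0 sg K b0 k → b ∉ Ts ud t y0 sg K b0 k →
      ms c (A (k + 1) (b / 2)) (ivm k b) ≤ L) :
    Reg1 (512 * e) L c A (Xs ud t F y0 sg) h K b0 (Vs ud y0 sg K b0) (Ts ud t y0 sg K b0) where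
  e0 := by positivity
  L0 := hL0
  hh := hh
  off k _ b hb hV := Xs_off hb hV
  hX k _ b _ _ := (avg_en hR hl hen he hs0 hsg k b).trans (by linarith)
  hX' k _ b _ := avg_en' hR hl hen he hs0 hsg k b
  hT k hk b hb hT := Xs_touch hR hl hK hk hb hT
  hL := hL
  hL' := hL'

/-! ### Haar signs -/

theorem hs_left {k : ℕ} {b x : ℤ} (hx : x ∈ ivm k (2 * b)) :
    Vale.Agent.P141.PL.hs (k + 1) x = 1 := by
  unfold Vale.Agent.P141.PL.hs
  have h : Vale.Agent.P141.PL.ix (k + 1 - 1) x = 2 * b := Vale.Agent.P141.PL.mem_iv.1 hx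
  rw [h, if_pos (by omega)]

theorem hs_right {k : ℕ} {b x : ℤ} (hx : x ∈ ivm k (2 * b + 1)) :
    Vale.Agent.P141.PL.hs (k + 1) x = -1 := by
  unfold Vale.Agent.P141.PL.hs
  have h : Vale.Agent.P141.PL.ix (k + 1 - 1) x = 2 * b + 1 := Vale.Agent.P141.PL.mem_iv.1 hx
  rw [h, if_neg (by omega)]

/-- the Haar signs satisfy the field `hh` of `Reg1` -/
theorem hh_hs (K : ℕ) (b0 : ℤ) : ∀ k < K, ∀ b ∈ cel K b0 (k + 1),
    (∀ x ∈ ivm k (2 * b), Vale.Agent.P141.PL.hs (k + 1) x = 1) ∧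
      ∀ x ∈ ivm k (2 * b + 1), Vale.Agent.P141.PL.hs (k + 1) x = -1 :=
  fun _ _ _ _ => ⟨fun _ hx => hs_left hx, fun _ hx => hs_right hx⟩

/-! ### The slots of the fibres of `H911` -/

open Vale.Agent.P141.H911 (dd dd_ne Xz Yz)

theorem abs_dd_le (σ : Equiv.Perm (Fin 4)) (a b : Fin 4) : |dd σ a b| ≤ 3 := by
  unfold dd
  have h1 := (σ a).isLt
  have h2 := (σ b).isLt
  rw [abs_le]
  constructor <;> omega

theorem Xz_slot {σ : Equiv.Perm (Fin 4)} {A : Fin 4 → ℕ → ℤ → ℝ} {k : ℕ}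
    (h : A (σ 2) k = Ys ud t F k) (u0 u1 u3 : ℤ) :
    Xz σ (fun j => A j k) u0 u1 u3 =
      Xs ud t F (dd σ 2 0 * u0 + dd σ 2 1 * u1) (dd σ 2 3) k u3 := by
  show A (σ 2) k _ = _
  rw [h]
  rfl

theorem Yz_slot {σ : Equiv.Perm (Fin 4)} {A : Fin 4 → ℕ → ℤ → ℝ} {k : ℕ}
    (h : A (σ 3) k = Ys ud t F k) (u0 u1 u2 : ℤ) :
    Yz σ (fun j => A j k) u0 u1 u2 =
      Xs ud t F (dd σ 3 0 * u0 + dd σ 3 1 * u1) (dd σ 3 2) k u2 := by
  show A (σ 3) k _ = _
  rw [h]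
  rfl

/-- the slots may be cut by the used cells -/
theorem TR_cut {α : Type*} {g : Grid ℤ} {nv : Vale.Agent.P141.PL.H855.N4 g α}
    {ud : ℕ → ℤ → Prop} (hc : ∀ k x y, y ∈ g.cube k x → (ud k y ↔ ud k x))
    (A : Fin 4 → ℕ → ℤ → ℝ) :
    Vale.Agent.P141.PL.H855.TR nv ud A =
      Vale.Agent.P141.PL.H855.TR nv ud fun j k y => if ud k y then A j k y else 0 := by
  refine Vale.Agent.P141.PL.H855.TR_congr fun k y hy j z hz => ?_
  show A j k z = if ud k z then A j k z else 0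
  rw [if_pos ((hc k y z hz).2 hy)]

theorem T4_cut {α : Type*} {g : Grid ℤ} {nv : NV g α} {ud : ℕ → ℤ → Prop}
    (hc : ∀ k x y, y ∈ g.cube k x → (ud k y ↔ ud k x)) (A B C D : ℕ → ℤ → ℝ) :
    T4 nv ud A B C D = T4 nv ud (fun k y => if ud k y then A k y else 0)
      (fun k y => if ud k y then B k y else 0) (fun k y => if ud k y then C k y else 0)
      (fun k y => if ud k y then D k y else 0) := by
  refine T4_congr fun k y hy z hz => ?_
  have h := (hc k y z hz).2 hy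
  simp only [if_pos h, and_self]

/-- the cut of a moving slot -/
theorem cut_mv (ud : ℕ → ℤ → Prop) (t : ℕ → ℤ → ℕ) (F : ℕ → ℤ → ℝ) (k : ℕ) :
    (fun y => if ud k y then mv t F k y else 0) = Ys ud t F k := rfl

/-- the cut of a static slot -/
theorem cut_st (ud : ℕ → ℤ → Prop) (t : ℕ → ℤ → ℕ) (F : ℤ → ℝ) (k : ℕ) :
    (fun y => if ud k y then st F k y else 0) = Ys ud t (fun _ => F) k := rfl

end

end Vale.Agent.P141.H935
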