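import Vale.Agent.P141.H935.WinSum
import Vale.Agent.P141.H297.Win7

/-!
# P141, line W: the births inside a region pay; the freezing identity for two moving slots

* `Dn g ud l y`: the part of the region below the cell `(l, y)`;
* `T4_births3`, `T4_births4`: one moving slot, the sum of the births inside the region;
* `T4_frz`: two moving slots; every term has one birth and one frozen partial sum;
* `pay_births3`, `pay_births4`, `pay_frz`: the same with payments;
* `win_births3`, `win_births4`, `win_frz`: the same for the paths of `H297` on one window.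
-/

namespace Vale.Agent.P141.H935

open Finset
open Vale.Agent.P141.H315 Vale.Agent.P141.PL.H318 Vale.Agent.P141.H347 Vale.Agent.P141.H8

noncomputable section

open scoped Classical

variable {X ι α : Type*} {g : Grid X} {gd ud : ℕ → X → Prop} {L : ℕ} {x : X}

/-- the part of the region below the cell `(l, y)` -/
def Dn (g : Grid X) (ud : ℕ → X → Prop) (l : ℕ) (y : X) : ℕ → X → Prop :=
  fun k z => ud k z ∧ k ≤ l ∧ z ∈ g.cube l y

theorem rgn_dn (h : Rgn g gd L x ud) {l : ℕ} (hl : l ≤ L) (y : X) : Rgn g gd l y (Dn g ud l y) where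
  const k z z' hz' := by
    unfold Dn
    constructor
    · rintro ⟨h1, h2, h3⟩
      exact ⟨(h.const k z z' hz').1 h1, h2, g.cube_subset h2 h3 (mem_cube_comm hz')⟩
    · rintro ⟨h1, h2, h3⟩
      exact ⟨(h.const k z z' hz').2 h1, h2, g.cube_subset h2 h3 hz'⟩
  up k hk z := fun ⟨h1, _, h3⟩ => ⟨h.up k (by omega) z h1, hk, h3⟩
  bel k z := fun ⟨_, h2, h3⟩ => ⟨h2, h3⟩
  sub k z := fun ⟨h1, _, _⟩ => h.sub k z h1

theorem sum_below (h : Rgn g gd L x ud) {l : ℕ} (hl : l ≤ L) (k : ℕ) (z : X) :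
    ∑ y ∈ g.cube L x, (if ud l y then
      (cd g l y)⁻¹ * (if Dn g ud l y k z then (1 : ℝ) else 0) else 0) =
      if ud k z ∧ k ≤ l then 1 else 0 := by
  by_cases hu : ud k z ∧ k ≤ l
  · rw [if_pos hu]
    obtain ⟨hu, hkl⟩ := hu
    obtain ⟨_, hz⟩ := h.bel k z hu
    have hudl : ud l z := h.up' hkl hl hu
    have hsub : g.cube l z ⊆ g.cube L x := g.cube_subset hl hz
    have e1 : ∀ y ∈ g.cube L x, (if ud l y then
        (cd g l y)⁻¹ * (if Dn g ud l y k z then (1 : ℝ) else 0) else 0) =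
        if y ∈ g.cube l z then (cd g l z)⁻¹ else 0 := by
      intro y _
      by_cases hy : y ∈ g.cube l z
      · have h1 : ud l y := (h.const l z y hy).2 hudl
        have h3 : Dn g ud l y k z := ⟨hu, hkl, mem_cube_comm hy⟩
        rw [if_pos h1, if_pos h3, if_pos hy, mul_one]
        congr 1
        unfold cd
        rw [g.eq_of_mem l z y hy]
      · have h3 : ¬ Dn g ud l y k z := fun h4 => hy (mem_cube_comm h4.2.2)
        rw [if_neg h3, if_neg hy, mul_zero, ite_self]
    rw [sum_congr rfl e1, sum_ite_mem, inter_eq_right.2 hsub, sum_const, nsmul_eq_mul]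
    have hc : (0 : ℝ) < cd g l z := cd_pos g l z
    unfold cd at hc ⊢
    exact mul_inv_cancel₀ hc.ne'
  · rw [if_neg hu]
    refine sum_eq_zero fun y _ => ?_
    have h3 : ¬ Dn g ud l y k z := fun h4 => hu ⟨h4.1, h4.2.1⟩
    rw [if_neg h3, mul_zero, ite_self]

/-- sums over the nodes and the scales above them, as sums over the cells -/
theorem sum_nodes (nv : NV g α) (h : Rgn g gd L x ud) (Q : ℕ → α → ℝ) :
    ∑ N ∈ nv.nd, (if ud (nv.sc N) (nv.pt N) then ∑ l ∈ Ico (nv.sc N) L, Q l N else 0) =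
      ∑ l ∈ range L, ∑ y ∈ g.cube L x, (if ud l y then
        (cd g l y)⁻¹ * ∑ N ∈ nv.nd, (if Dn g ud l y (nv.sc N) (nv.pt N) then Q l N else 0)
          else 0) := by
  have e1 : ∀ N ∈ nv.nd, (if ud (nv.sc N) (nv.pt N) then ∑ l ∈ Ico (nv.sc N) L, Q l N else 0) =
      ∑ l ∈ range L, (if ud (nv.sc N) (nv.pt N) ∧ nv.sc N ≤ l then (1 : ℝ) else 0) * Q l N := by
    intro N _
    by_cases hu : ud (nv.sc N) (nv.pt N)
    · rw [if_pos hu]
      have e2 : Ico (nv.sc N) L = (range L).filter fun l => nv.sc N ≤ l := by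
        ext l
        rw [mem_Ico, mem_filter, mem_range]
        exact and_comm
      rw [e2, sum_filter]
      refine sum_congr rfl fun l _ => ?_
      by_cases hl : nv.sc N ≤ l
      · rw [if_pos hl, if_pos ⟨hu, hl⟩, one_mul]
      · rw [if_neg hl, if_neg fun h' => hl h'.2, zero_mul]
    · rw [if_neg hu]
      symm
      refine sum_eq_zero fun l _ => ?_
      rw [if_neg fun h' => hu h'.1, zero_mul]
  rw [sum_congr rfl e1, sum_comm]
  refine sum_congr rfl fun l hl => ?_
  have hlL : l ≤ L := (mem_range.1 hl).le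
  have e3 : ∀ N ∈ nv.nd, (if ud (nv.sc N) (nv.pt N) ∧ nv.sc N ≤ l then (1 : ℝ) else 0) * Q l N =
      ∑ y ∈ g.cube L x, (if ud l y then
        (cd g l y)⁻¹ * (if Dn g ud l y (nv.sc N) (nv.pt N) then Q l N else 0) else 0) := by
    intro N _
    rw [← sum_below h hlL (nv.sc N) (nv.pt N), sum_mul]
    refine sum_congr rfl fun y _ => ?_
    split_ifs <;> simp
  rw [sum_congr rfl e3, sum_comm]
  refine sum_congr rfl fun y _ => ?_
  split_ifs
  · rw [mul_sum]
  · exact sum_const_zero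

/-- the sum over the cells of the region, strictly below the top scale, of a density -/
def Cs (g : Grid X) (ud : ℕ → X → Prop) (L : ℕ) (x : X) (ph : ℕ → X → ℝ) : ℝ :=
  ∑ l ∈ range L, ∑ y ∈ g.cube L x, if ud l y then ph l y else 0

theorem Cs_mono {ph ph' : ℕ → X → ℝ} (H : ∀ l < L, ∀ y ∈ g.cube L x, ud l y → ph l y ≤ ph' l y) :
    Cs g ud L x ph ≤ Cs g ud L x ph' := by
  unfold Cs
  refine sum_le_sum fun l hl => sum_le_sum fun y hy => ?_
  split_ifs with hu
  · exact H l (mem_range.1 hl) y hy hu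
  · exact le_rfl

theorem Cs_add (ph ph' : ℕ → X → ℝ) :
    Cs g ud L x (fun l y => ph l y + ph' l y) = Cs g ud L x ph + Cs g ud L x ph' := by
  unfold Cs
  rw [← sum_add_distrib]
  refine sum_congr rfl fun l _ => ?_
  rw [← sum_add_distrib]
  refine sum_congr rfl fun y _ => ?_
  split_ifs <;> simp

theorem Cs_smul (r : ℝ) (ph : ℕ → X → ℝ) :
    Cs g ud L x (fun l y => r * ph l y) = r * Cs g ud L x ph := by
  unfold Cs
  rw [mul_sum]
  refine sum_congr rfl fun l _ => ?_
  rw [mul_sum]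
  refine sum_congr rfl fun y _ => ?_
  split_ifs <;> simp

/-- the partial sums of a sequence of functions, from the scale `k` up to the top -/
def Ps (L : ℕ) (b : ℕ → X → ℝ) (k : ℕ) : X → ℝ := ∑ m ∈ Ico k L, b m

theorem Ps_apply (L : ℕ) (b : ℕ → X → ℝ) (k : ℕ) (y : X) : Ps L b k y = ∑ m ∈ Ico k L, b m y := by
  unfold Ps; rw [Finset.sum_apply]

theorem v_Ps3 (nv : NV g α) (N : α) (a b d : X → ℝ) (c : ℕ → X → ℝ) (k : ℕ) :
    |nv.v N a b (Ps L c k) d| ≤ ∑ l ∈ Ico k L, |nv.v N a b (c l) d| := by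
  have h := v_sum3 (nv := nv) (Ico k L) N a b d (fun _ => 1) c
  simp only [one_smul, one_mul] at h
  unfold Ps
  rw [h]
  exact abs_sum_le_sum_abs _ _

theorem v_Ps4 (nv : NV g α) (N : α) (a b c : X → ℝ) (d : ℕ → X → ℝ) (k : ℕ) :
    |nv.v N a b c (Ps L d k)| ≤ ∑ l ∈ Ico k L, |nv.v N a b c (d l)| := by
  have h := v_sum4 (nv := nv) (Ico k L) N a b c (fun _ => 1) d
  simp only [one_smul, one_mul] at h
  unfold Ps
  rw [h]
  exact abs_sum_le_sum_abs _ _

theorem Ps_succ (b : ℕ → X → ℝ) {k : ℕ} (hk : k < L) : Ps L b k = b k + Ps L b (k + 1) := by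
  unfold Ps
  exact sum_eq_sum_Ico_succ_bot hk _

/-- the freezing identity at one node -/
theorem v_frz (nv : NV g α) (N : α) (a b : X → ℝ) (c d : ℕ → X → ℝ) (k : ℕ) (hk : k ≤ L) :
    |nv.v N a b (Ps L c k) (Ps L d k)| ≤ ∑ l ∈ Ico k L,
      (|nv.v N a b (c l) (Ps L d l)| + |nv.v N a b (Ps L c (l + 1)) (d l)|) := by
  obtain ⟨m, hm⟩ : ∃ m, m = L - k := ⟨_, rfl⟩
  induction m generalizing k with
  | zero =>
    have : k = L := by omega
    subst this
    have e : Ps k c k = 0 := by unfold Ps; rw [Ico_self, sum_empty]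
    rw [e, v_zero3, abs_zero, Ico_self, sum_empty]
  | succ m ih =>
    have hkL : k < L := by omega
    rw [sum_eq_sum_Ico_succ_bot hkL]
    have h1 : nv.v N a b (Ps L c k) (Ps L d k) = nv.v N a b (c k) (Ps L d k) +
        (nv.v N a b (Ps L c (k + 1)) (d k) + nv.v N a b (Ps L c (k + 1)) (Ps L d (k + 1))) := by
      rw [Ps_succ c hkL, nv.add3]
      congr 1
      rw [Ps_succ d hkL, nv.add4]
    rw [h1]
    have h2 := ih (k + 1) (by omega) (by omega)
    have h3 := abs_add_le (nv.v N a b (c k) (Ps L d k))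
      (nv.v N a b (Ps L c (k + 1)) (d k) + nv.v N a b (Ps L c (k + 1)) (Ps L d (k + 1)))
    have h4 := abs_add_le (nv.v N a b (Ps L c (k + 1)) (d k))
      (nv.v N a b (Ps L c (k + 1)) (Ps L d (k + 1)))
    linarith

/-- **one moving slot** (slot 3) -/
theorem T4_births3 (nv : NV g α) (h : Rgn g gd L x ud) (A B D : ℕ → X → ℝ) (c : ℕ → X → ℝ) :
    T4 nv ud A B (Ps L c) D ≤ Cs g ud L x
      fun l y => (cd g l y)⁻¹ * T4 nv (Dn g ud l y) A B (st (c l)) D := by
  refine le_trans ?_ (le_of_eq (sum_nodes nv h fun l N =>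
    |nv.v N (A (nv.sc N)) (B (nv.sc N)) (c l) (D (nv.sc N))|))
  unfold T4
  refine sum_le_sum fun N _ => ?_
  split_ifs with hu
  · exact v_Ps3 nv N _ _ _ c _
  · exact le_rfl

/-- **one moving slot** (slot 4) -/
theorem T4_births4 (nv : NV g α) (h : Rgn g gd L x ud) (A B C : ℕ → X → ℝ) (d : ℕ → X → ℝ) :
    T4 nv ud A B C (Ps L d) ≤ Cs g ud L x
      fun l y => (cd g l y)⁻¹ * T4 nv (Dn g ud l y) A B C (st (d l)) := by
  refine le_trans ?_ (le_of_eq (sum_nodes nv h fun l N =>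
    |nv.v N (A (nv.sc N)) (B (nv.sc N)) (C (nv.sc N)) (d l)|))
  unfold T4
  refine sum_le_sum fun N _ => ?_
  split_ifs with hu
  · exact v_Ps4 nv N _ _ _ d _
  · exact le_rfl

/-- **two moving slots: the freezing inequality** -/
theorem T4_frz (nv : NV g α) (h : Rgn g gd L x ud) (A B : ℕ → X → ℝ) (c d : ℕ → X → ℝ) :
    T4 nv ud A B (Ps L c) (Ps L d) ≤
      Cs g ud L x (fun l y => (cd g l y)⁻¹ * T4 nv (Dn g ud l y) A B (st (c l)) (st (Ps L d l))) +
      Cs g ud L x (fun l y => (cd g l y)⁻¹ *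
        T4 nv (Dn g ud l y) A B (st (Ps L c (l + 1))) (st (d l))) := by
  have e1 := sum_nodes nv h fun l N =>
    |nv.v N (A (nv.sc N)) (B (nv.sc N)) (c l) (Ps L d l)|
  have e2 := sum_nodes nv h fun l N =>
    |nv.v N (A (nv.sc N)) (B (nv.sc N)) (Ps L c (l + 1)) (d l)|
  refine le_trans ?_ (le_of_eq (congrArg₂ (· + ·) e1 e2))
  unfold T4
  rw [← sum_add_distrib]
  refine sum_le_sum fun N _ => ?_
  split_ifs with hu
  · rw [← sum_add_distrib]
    exact v_frz nv N _ _ c d _ (h.bel _ _ hu).1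
  · simp

/-! ### Payments -/

variable {S : CSys g ι} {w : LW S}

/-- the births at one cell, atom by atom (slot 3) -/
theorem T4_birth3_le (nv : NV g α) {A B D : ℕ → X → ℝ} {l : ℕ} {y : X} {G : X → ℝ} {p : ℝ}
    (hpay : ∀ i, bm S l G (g.cube l y) i ≠ 0 → T4 nv (Dn g ud l y) A B (st (S.a l i)) D ≤
      p * w.ω l l y i * cd g l y) :
    T4 nv (Dn g ud l y) A B (st (birth S l G)) D ≤ p * lden w l l G y * cd g l y := by
  have e1 : T4 nv (Dn g ud l y) A B (st (birth S l G)) D =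
      T4 nv (Dn g ud l y) A B (st (∑ i ∈ (bm S l G (g.cube l y)).support,
        (bm S l G (g.cube l y)) i • S.a l i)) D := by
    refine T4_congr fun k z hz u hu => ⟨rfl, rfl, ?_, rfl⟩
    unfold st
    rw [Vale.Agent.P141.H297.birth_sum S l G (g.cube_subset hz.2.1 hz.2.2 hu), Finsupp.sum,
      Finset.sum_apply]
    exact sum_congr rfl fun i _ => rfl
  rw [e1]
  refine (T4_sum3 _ A B D _ _).trans ?_
  unfold lden Finsupp.sum
  rw [mul_sum, sum_mul]
  refine sum_le_sum fun i hi => ?_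
  have h1 := mul_le_mul_of_nonneg_left (hpay i (Finsupp.mem_support_iff.1 hi))
    (abs_nonneg ((bm S l G (g.cube l y)) i))
  refine h1.trans (le_of_eq ?_)
  ring

/-- the births at one cell, atom by atom (slot 4) -/
theorem T4_birth4_le (nv : NV g α) {A B C : ℕ → X → ℝ} {l : ℕ} {y : X} {G : X → ℝ} {p : ℝ}
    (hpay : ∀ i, bm S l G (g.cube l y) i ≠ 0 → T4 nv (Dn g ud l y) A B C (st (S.a l i)) ≤
      p * w.ω l l y i * cd g l y) :
    T4 nv (Dn g ud l y) A B C (st (birth S l G)) ≤ p * lden w l l G y * cd g l y := by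
  have e1 : T4 nv (Dn g ud l y) A B C (st (birth S l G)) =
      T4 nv (Dn g ud l y) A B C (st (∑ i ∈ (bm S l G (g.cube l y)).support,
        (bm S l G (g.cube l y)) i • S.a l i)) := by
    refine T4_congr fun k z hz u hu => ⟨rfl, rfl, rfl, ?_⟩
    unfold st
    rw [Vale.Agent.P141.H297.birth_sum S l G (g.cube_subset hz.2.1 hz.2.2 hu), Finsupp.sum,
      Finset.sum_apply]
    exact sum_congr rfl fun i _ => rfl
  rw [e1]
  refine (T4_sum4 _ A B C _ _).trans ?_
  unfold lden Finsupp.sum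
  rw [mul_sum, sum_mul]
  refine sum_le_sum fun i hi => ?_
  have h1 := mul_le_mul_of_nonneg_left (hpay i (Finsupp.mem_support_iff.1 hi))
    (abs_nonneg ((bm S l G (g.cube l y)) i))
  refine h1.trans (le_of_eq ?_)
  ring

/-- **one moving slot, paid by its births** (slot 3) -/
theorem pay_births3 (nv : NV g α) (h : Rgn g gd L x ud) {A B D : ℕ → X → ℝ} {H : ℕ → X → ℝ}
    {p : ℝ} (hpay : ∀ l < L, ∀ y ∈ g.cube L x, ud l y → ∀ i, bm S l (H l) (g.cube l y) i ≠ 0 →
      T4 nv (Dn g ud l y) A B (st (S.a l i)) D ≤ p * w.ω l l y i * cd g l y) :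
    T4 nv ud A B (Ps L fun m => birth S m (H m)) D ≤
      p * Cs g ud L x fun l y => lden w l l (H l) y := by
  refine (T4_births3 nv h A B D _).trans ?_
  rw [← Cs_smul]
  refine Cs_mono fun l hl y hy hu => ?_
  rw [inv_mul_le_iff₀ (cd_pos g l y)]
  refine (T4_birth3_le (w := w) nv (hpay l hl y hy hu)).trans (le_of_eq ?_)
  ring

/-- **one moving slot, paid by its births** (slot 4) -/
theorem pay_births4 (nv : NV g α) (h : Rgn g gd L x ud) {A B C : ℕ → X → ℝ} {H : ℕ → X → ℝ}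
    {p : ℝ} (hpay : ∀ l < L, ∀ y ∈ g.cube L x, ud l y → ∀ i, bm S l (H l) (g.cube l y) i ≠ 0 →
      T4 nv (Dn g ud l y) A B C (st (S.a l i)) ≤ p * w.ω l l y i * cd g l y) :
    T4 nv ud A B C (Ps L fun m => birth S m (H m)) ≤
      p * Cs g ud L x fun l y => lden w l l (H l) y := by
  refine (T4_births4 nv h A B C _).trans ?_
  rw [← Cs_smul]
  refine Cs_mono fun l hl y hy hu => ?_
  rw [inv_mul_le_iff₀ (cd_pos g l y)]
  refine (T4_birth4_le (w := w) nv (hpay l hl y hy hu)).trans (le_of_eq ?_)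
  ring

/-- **two moving slots, paid by their births, the other slot frozen at the birth** -/
theorem pay_frz (nv : NV g α) (h : Rgn g gd L x ud) {S S' : CSys g ι} {w : LW S} {w' : LW S'}
    {A B : ℕ → X → ℝ} {H H' : ℕ → X → ℝ} {p : ℝ}
    (hpay : ∀ l < L, ∀ y ∈ g.cube L x, ud l y → ∀ i, bm S l (H l) (g.cube l y) i ≠ 0 →
      T4 nv (Dn g ud l y) A B (st (S.a l i)) (st (Ps L (fun m => birth S' m (H' m)) l)) ≤
        p * w.ω l l y i * cd g l y)
    (hpay' : ∀ l < L, ∀ y ∈ g.cube L x, ud l y → ∀ i, bm S' l (H' l) (g.cube l y) i ≠ 0 →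
      T4 nv (Dn g ud l y) A B (st (Ps L (fun m => birth S m (H m)) (l + 1))) (st (S'.a l i)) ≤
        p * w'.ω l l y i * cd g l y) :
    T4 nv ud A B (Ps L fun m => birth S m (H m)) (Ps L fun m => birth S' m (H' m)) ≤
      p * Cs g ud L x (fun l y => lden w l l (H l) y + lden w' l l (H' l) y) := by
  refine (T4_frz nv h A B _ _).trans ?_
  rw [Cs_add, mul_add]
  refine add_le_add ?_ ?_
  · rw [← Cs_smul]
    refine Cs_mono fun l hl y hy hu => ?_
    rw [inv_mul_le_iff₀ (cd_pos g l y)]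
    refine (T4_birth3_le (w := w) nv (hpay l hl y hy hu)).trans (le_of_eq ?_)
    ring
  · rw [← Cs_smul]
    refine Cs_mono fun l hl y hy hu => ?_
    rw [inv_mul_le_iff₀ (cd_pos g l y)]
    refine (T4_birth4_le (w := w') nv (hpay' l hl y hy hu)).trans (le_of_eq ?_)
    ring

end

end Vale.Agent.P141.H935
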