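import Vale.Agent.P141.H935.Slot
import Vale.Agent.P141.H75.SpT
import Vale.Agent.P141.H606.FB

/-!
# P141, line W, END (E-AG): the roots of one fibre

`rts s Λ x y0 sg`: the cells of scale `Λ` of the line which are read by the slot
`u ↦ y0 + sg u` inside the cell `(Λ, x)`.
-/

namespace Vale.Agent.P141.H935

open Finset
open Vale.Agent.P141.PL.H95 (gr mem_gr card_gr)
open Vale.Agent.P141.H337 (cel ivm card_ivm)

noncomputable section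

open scoped Classical

/-! ### Roots of the cells of a line -/

theorem mem_cel_iff {K k : ℕ} {b n : ℤ} : n ∈ cel K b k ↔ n / 2 ^ (K - k) = b := by
  unfold cel
  have hp : (0 : ℤ) < 2 ^ (K - k) := by positivity
  rw [mem_Ico]
  constructor
  · rintro ⟨h1, h2⟩
    refine le_antisymm ?_ ?_
    · exact Int.lt_add_one_iff.mp (Int.ediv_lt_of_lt_mul hp (by linarith))
    · exact Int.le_ediv_of_mul_le hp (by linarith)
  · rintro rfl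
    have h3 := Int.mul_ediv_add_emod n (2 ^ (K - k))
    have h4 := Int.emod_nonneg n hp.ne'
    have h5 := Int.emod_lt_of_pos n hp
    constructor <;> linarith

theorem mem_cel_root (K k : ℕ) (n : ℤ) : n ∈ cel K (n / 2 ^ (K - k)) k := mem_cel_iff.2 rfl

theorem mem_ivm_iff {k : ℕ} {b u : ℤ} : u ∈ ivm k b ↔ u / 2 ^ k = b :=
  Vale.Agent.P141.PL.mem_iv

/-- the cell of scale `K` of a point is the root of its cell of scale `k` -/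
theorem root_eq {k K : ℕ} (hk : k ≤ K) {n u : ℤ} (hu : u ∈ ivm k n) :
    n / 2 ^ (K - k) = u / 2 ^ K := by
  rw [mem_ivm_iff] at hu
  rw [← hu, Int.ediv_ediv_of_nonneg (by positivity), ← pow_add, Nat.add_sub_cancel' hk]

/-- the points of a line in a cell -/
def lpts (s : ℤ) (Λ : ℕ) (x y0 sg : ℤ) : Finset ℤ :=
  if h : sg = 0 then ∅ else
    ((gr 7 s).cube Λ x).preimage (fun u => y0 + sg * u) (by
      intro u _ v _ h'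
      have h1 : sg * u = sg * v := by
        have : y0 + sg * u = y0 + sg * v := h'
        linarith
      exact mul_left_cancel₀ h h1)

theorem mem_lpts {s : ℤ} {Λ : ℕ} {x y0 sg : ℤ} (h : sg ≠ 0) {u : ℤ} :
    u ∈ lpts s Λ x y0 sg ↔ y0 + sg * u ∈ (gr 7 s).cube Λ x := by
  unfold lpts
  rw [dif_neg h]
  exact mem_preimage

/-- **the roots of one variable of a fibre** -/
def rts (s : ℤ) (Λ : ℕ) (x y0 sg : ℤ) : Finset ℤ := (lpts s Λ x y0 sg).image fun u => u / 2 ^ Λ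

theorem card_rts (s : ℤ) (Λ : ℕ) (x y0 sg : ℤ) : (rts s Λ x y0 sg).card ≤ 129 := by
  by_cases h : sg = 0
  · unfold rts lpts
    rw [dif_pos h]
    simp
  · refine count_cells (s := s) (y0 := y0) (sg := sg) h (k := Λ) (v := x) _ fun b hb => ?_
    obtain ⟨u, hu, rfl⟩ := mem_image.1 hb
    exact ⟨u, mem_ivm_iff.2 rfl, (mem_lpts h).1 hu⟩

theorem root_mem {s : ℤ} {Λ : ℕ} {x y0 sg : ℤ} (hs : sg ≠ 0) {k : ℕ} (hk : k ≤ Λ) {n u : ℤ}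
    (hu : u ∈ ivm k n) (h : y0 + sg * u ∈ (gr 7 s).cube Λ x) :
    n / 2 ^ (Λ - k) ∈ rts s Λ x y0 sg := by
  unfold rts
  rw [root_eq hk hu]
  exact mem_image.2 ⟨u, (mem_lpts hs).2 h, rfl⟩

/-! ### The sum over the roots -/

/-- the boxes with the roots `b2`, `b3` -/
def Ub (K : ℕ) (U : ℕ → Finset ℤ) (q : ℕ → ℤ → ℤ) (b2 b3 : ℤ) (k : ℕ) : Finset ℤ :=
  (U k).filter fun n => n ∈ cel K b2 k ∧ q k n ∈ cel K b3 k

theorem mem_Ub {K : ℕ} {U : ℕ → Finset ℤ} {q : ℕ → ℤ → ℤ} {b2 b3 : ℤ} {k : ℕ} {n : ℤ} :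
    n ∈ Ub K U q b2 b3 k ↔ n ∈ U k ∧ n ∈ cel K b2 k ∧ q k n ∈ cel K b3 k := mem_filter

theorem sum_Icc_range (K : ℕ) (f : ℕ → ℝ) : ∑ k ∈ Icc 1 K, f k = ∑ k ∈ range K, f (k + 1) := by
  rw [range_eq_Ico, sum_Ico_add' f 0 K 1]
  rfl

/-- **The sum over the boxes of a fibre is the sum over the roots.** -/
theorem sum_roots {K : ℕ} {U : ℕ → Finset ℤ} {q : ℕ → ℤ → ℤ} {R2 R3 : Finset ℤ}
    (h2 : ∀ k, 1 ≤ k → k ≤ K → ∀ n ∈ U k, n / 2 ^ (K - k) ∈ R2)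
    (h3 : ∀ k, 1 ≤ k → k ≤ K → ∀ n ∈ U k, q k n / 2 ^ (K - k) ∈ R3) (F : ℕ → ℤ → ℝ) :
    ∑ k ∈ Icc 1 K, ∑ n ∈ U k, F k n =
      ∑ b2 ∈ R2, ∑ b3 ∈ R3, ∑ k ∈ range K, ∑ n ∈ Ub K U q b2 b3 (k + 1), F (k + 1) n := by
  rw [sum_Icc_range]
  have e1 : ∀ k ∈ range K, ∑ n ∈ U (k + 1), F (k + 1) n =
      ∑ b2 ∈ R2, ∑ b3 ∈ R3, ∑ n ∈ Ub K U q b2 b3 (k + 1), F (k + 1) n := by
    intro k hk
    have hk' := mem_range.1 hk
    unfold Ub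
    simp_rw [sum_filter]
    have e2 : ∀ n ∈ U (k + 1), F (k + 1) n = ∑ b2 ∈ R2, ∑ b3 ∈ R3,
        if n ∈ cel K b2 (k + 1) ∧ q (k + 1) n ∈ cel K b3 (k + 1) then F (k + 1) n else 0 := by
      intro n hn
      rw [sum_eq_single (n / 2 ^ (K - (k + 1)))]
      · rw [sum_eq_single (q (k + 1) n / 2 ^ (K - (k + 1)))]
        · rw [if_pos ⟨mem_cel_root _ _ _, mem_cel_root _ _ _⟩]
        · intro b _ hb
          rw [if_neg fun h => hb ?_]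
          exact (mem_cel_iff.1 h.2).symm
        · intro h
          exact absurd (h3 (k + 1) (by omega) (by omega) n hn) h
      · intro b _ hb
        refine sum_eq_zero fun b3 _ => ?_
        rw [if_neg fun h => hb ?_]
        exact (mem_cel_iff.1 h.1).symm
      · intro h
        exact absurd (h2 (k + 1) (by omega) (by omega) n hn) h
    rw [sum_congr rfl e2, sum_comm]
    refine sum_congr rfl fun b2 _ => ?_
    rw [sum_comm]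
  rw [sum_congr rfl e1, sum_comm]
  refine sum_congr rfl fun b2 _ => ?_
  rw [sum_comm]

/-! ### The letters of the fibres -/

open Vale.Agent.P141.H911 (dd dd_ne elp qz vz Uz vk)
open Vale.Agent.P141.H75 (Ut und form_used mem_Ut)
open Vale.Agent.P141.PL.H571 (W)
open Vale.Agent.P141.H8 (Rgn)
open Vale.Agent.P141.H606 (KP kp)

theorem elp_3 (τ : Equiv.Perm (Fin 4)) (x0 x1 x2 x3 : ℤ) :
    elp τ 3 ![x0, x1, x2, x3] = dd τ 3 0 * x0 + dd τ 3 1 * x1 + dd τ 3 2 * x2 := by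
  simp [elp, dd, Fin.sum_univ_four]

theorem elp_2 (τ : Equiv.Perm (Fin 4)) (x0 x1 x2 x3 : ℤ) :
    elp τ 2 ![x0, x1, x2, x3] = dd τ 2 0 * x0 + dd τ 2 1 * x1 + dd τ 2 3 * x3 := by
  simp [elp, dd, Fin.sum_univ_four]

theorem ivm_nonempty (k : ℕ) (b : ℤ) : ∃ u, u ∈ ivm k b := by
  have h : (0 : ℤ) < 2 ^ k := by positivity
  exact ⟨2 ^ k * b, mem_ivm.2 ⟨le_rfl, by linarith⟩⟩

theorem qz_inj (o m0 m1 : ℤ) : Function.Injective (qz o m0 m1) := by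
  intro n n' h
  unfold qz at h
  linarith

section fibre

variable {s o : ℤ} {nd : Finset (ℕ × ℤ)} {le : ℕ × ℤ → ℤ} {gd ud : ℕ → ℤ → Prop} {Λ : ℕ} {x : ℤ}

/-- used boxes: the points of the slots `2` and `3` are used -/
theorem used_23 (ho : o = 1 ∨ o = -1)
    (hsub : ∀ N ∈ nd, W N.1 N.2 ⊆ (gr 7 s).cube N.1 (le N)) (hR : Rgn (gr 7 s) gd Λ x ud)
    {τ : Equiv.Perm (Fin 4)} {k : ℕ} {m0 m1 n x0 x1 : ℤ} (hn : n ∈ Ut τ o nd le ud k m0 m1)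
    (h0 : x0 ∈ ivm k m0) (h1 : x1 ∈ ivm k m1) :
    (∀ u ∈ ivm k n, ud k (dd τ 3 0 * x0 + dd τ 3 1 * x1 + dd τ 3 2 * u)) ∧
      ∀ u ∈ ivm k (qz o m0 m1 n), ud k (dd τ 2 0 * x0 + dd τ 2 1 * x1 + dd τ 2 3 * u) := by
  obtain ⟨v2, hv2⟩ := ivm_nonempty k n
  obtain ⟨v3, hv3⟩ := ivm_nonempty k (qz o m0 m1 n)
  constructor
  · intro u hu
    have h := (form_used ho hsub hR.const hn h0 h1 hu hv3 3).2
    rwa [elp_3] at h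
  · intro u hu
    have h := (form_used ho hsub hR.const hn h0 h1 hv2 hu 2).2
    rwa [elp_2] at h

/-- **the roots of a used box** -/
theorem Ut_roots (ho : o = 1 ∨ o = -1)
    (hsub : ∀ N ∈ nd, W N.1 N.2 ⊆ (gr 7 s).cube N.1 (le N)) (hR : Rgn (gr 7 s) gd Λ x ud)
    {τ : Equiv.Perm (Fin 4)} {k : ℕ} {m0 m1 n x0 x1 : ℤ} (hn : n ∈ Ut τ o nd le ud k m0 m1)
    (h0 : x0 ∈ ivm k m0) (h1 : x1 ∈ ivm k m1) :
    n / 2 ^ (Λ - k) ∈ rts s Λ x (dd τ 3 0 * x0 + dd τ 3 1 * x1) (dd τ 3 2) ∧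
      qz o m0 m1 n / 2 ^ (Λ - k) ∈ rts s Λ x (dd τ 2 0 * x0 + dd τ 2 1 * x1) (dd τ 2 3) := by
  obtain ⟨v2, hv2⟩ := ivm_nonempty k n
  obtain ⟨v3, hv3⟩ := ivm_nonempty k (qz o m0 m1 n)
  obtain ⟨h3, h2⟩ := used_23 ho hsub hR hn h0 h1
  obtain ⟨k1, c1⟩ := hR.bel k _ (h3 v2 hv2)
  obtain ⟨_, c2⟩ := hR.bel k _ (h2 v3 hv3)
  exact ⟨root_mem (dd_ne τ (by decide)) k1 hv2 c1, root_mem (dd_ne τ (by decide)) k1 hv3 c2⟩

/-- **used boxes are used cells of the two lines** -/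
theorem Ut_Vs (ho : o = 1 ∨ o = -1)
    (hsub : ∀ N ∈ nd, W N.1 N.2 ⊆ (gr 7 s).cube N.1 (le N)) (hR : Rgn (gr 7 s) gd Λ x ud)
    {τ : Equiv.Perm (Fin 4)} {k : ℕ} {m0 m1 n x0 x1 b2 b3 : ℤ}
    (hn : n ∈ Ut τ o nd le ud k m0 m1) (h0 : x0 ∈ ivm k m0) (h1 : x1 ∈ ivm k m1)
    (hb2 : n ∈ cel Λ b2 k) (hb3 : qz o m0 m1 n ∈ cel Λ b3 k) :
    n ∈ Vs ud (dd τ 3 0 * x0 + dd τ 3 1 * x1) (dd τ 3 2) Λ b2 k ∧
      qz o m0 m1 n ∈ Vs ud (dd τ 2 0 * x0 + dd τ 2 1 * x1) (dd τ 2 3) Λ b3 k := by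
  obtain ⟨v2, hv2⟩ := ivm_nonempty k n
  obtain ⟨v3, hv3⟩ := ivm_nonempty k (qz o m0 m1 n)
  obtain ⟨h3, h2⟩ := used_23 ho hsub hR hn h0 h1
  unfold Vs
  exact ⟨mem_filter.2 ⟨hb2, v2, hv2, h3 v2 hv2⟩, mem_filter.2 ⟨hb3, v3, hv3, h2 v3 hv3⟩⟩

/-- the matched cell of a fibre -/
def qf (o x0 x1 : ℤ) (k : ℕ) (n : ℤ) : ℤ := qz o (x0 / 2 ^ k) (x1 / 2 ^ k) n

/-- the used cells of a fibre -/
def Uf (τ : Equiv.Perm (Fin 4)) (o : ℤ) (nd : Finset (ℕ × ℤ)) (le : ℕ × ℤ → ℤ)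
    (ud : ℕ → ℤ → Prop) (x0 x1 : ℤ) (k : ℕ) : Finset ℤ :=
  Ut τ o nd le ud k (x0 / 2 ^ k) (x1 / 2 ^ k)

/-- **the kernel part of a fibre is a sum over the roots** -/
theorem KP_roots (ho : o = 1 ∨ o = -1)
    (hsub : ∀ N ∈ nd, W N.1 N.2 ⊆ (gr 7 s).cube N.1 (le N)) (hR : Rgn (gr 7 s) gd Λ x ud)
    (τ : Equiv.Perm (Fin 4)) (A : Fin 4 → ℕ → ℤ → ℝ) (Kr : ℕ → ℤ → ℤ → ℤ → ℤ → ℝ) (x0 x1 : ℤ) :
    KP τ o Λ (und nd le ud) A Kr x0 x1 =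
      ∑ b2 ∈ rts s Λ x (dd τ 3 0 * x0 + dd τ 3 1 * x1) (dd τ 3 2),
        ∑ b3 ∈ rts s Λ x (dd τ 2 0 * x0 + dd τ 2 1 * x1) (dd τ 2 3),
          ∑ k ∈ range Λ, ∑ n ∈ Ub Λ (Uf τ o nd le ud x0 x1) (qf o x0 x1) b2 b3 (k + 1),
            2 ^ (k + 1) * kp τ (fun j => A j (k + 1)) (Kr (k + 1)) (k + 1) x0 x1 n
              (qf o x0 x1 (k + 1) n) := by
  unfold KP
  exact sum_roots (U := Uf τ o nd le ud x0 x1) (q := qf o x0 x1)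
    (fun k _ _ n hn => (Ut_roots ho hsub hR hn (mem_ivm_iff.2 rfl) (mem_ivm_iff.2 rfl)).1)
    (fun k _ _ n hn => (Ut_roots ho hsub hR hn (mem_ivm_iff.2 rfl) (mem_ivm_iff.2 rfl)).2)
    (fun k n => 2 ^ k * kp τ (fun j => A j k) (Kr k) k x0 x1 n
      (qz o (x0 / 2 ^ k) (x1 / 2 ^ k) n))

/-- the index conditions of `fib_reg` -/
theorem Ub_facts (ho : o = 1 ∨ o = -1)
    (hsub : ∀ N ∈ nd, W N.1 N.2 ⊆ (gr 7 s).cube N.1 (le N)) (hR : Rgn (gr 7 s) gd Λ x ud)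
    (τ : Equiv.Perm (Fin 4)) (x0 x1 b2 b3 : ℤ) :
    (∀ k, Set.InjOn (qf o x0 x1 k) (Ub Λ (Uf τ o nd le ud x0 x1) (qf o x0 x1) b2 b3 k)) ∧
      (∀ k, ∀ n ∈ Ub Λ (Uf τ o nd le ud x0 x1) (qf o x0 x1) b2 b3 k,
        n ∈ cel Λ b2 k ∧ n ∈ Vs ud (dd τ 3 0 * x0 + dd τ 3 1 * x1) (dd τ 3 2) Λ b2 k) ∧
      ∀ k, ∀ n ∈ Ub Λ (Uf τ o nd le ud x0 x1) (qf o x0 x1) b2 b3 k,
        qf o x0 x1 k n ∈ cel Λ b3 k ∧
          qf o x0 x1 k n ∈ Vs ud (dd τ 2 0 * x0 + dd τ 2 1 * x1) (dd τ 2 3) Λ b3 k := by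
  refine ⟨fun k => (qz_inj _ _ _).injOn, fun k n hn => ?_, fun k n hn => ?_⟩
  · obtain ⟨h1, h2, h3⟩ := mem_Ub.1 hn
    exact ⟨h2, (Ut_Vs ho hsub hR h1 (mem_ivm_iff.2 rfl) (mem_ivm_iff.2 rfl) h2 h3).1⟩
  · obtain ⟨h1, h2, h3⟩ := mem_Ub.1 hn
    exact ⟨h3, (Ut_Vs ho hsub hR h1 (mem_ivm_iff.2 rfl) (mem_ivm_iff.2 rfl) h2 h3).2⟩

end fibre

end

end Vale.Agent.P141.H935
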