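import Vale.Agent.P141.H606.Reg

/-!
# P141, line W, END (E-AG): the number of the kernel part

The sum over the fibres `z` and over the roots `b2`, `b3` of the bounds of `H606.fib_reg`.
-/

namespace Vale.Agent.P141.H935

open Finset
open Vale.Agent.P141.H606 (TV)

noncomputable section

/-- the bound of one variable of one fibre -/
theorem TV_le {ε e L : ℝ} (hε : 0 < ε) (he : 0 ≤ e) (hL : 0 ≤ L) {K : ℕ} {l t d g tb D : ℝ}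
    (hl : l ≤ 2 ^ K) (ht : t ≤ tb) (hd : d ≤ D) (hg : g ≤ 2 ^ K * L ^ 2 + 2 * L * D) :
    TV ε e L l t d g ≤ e * ((2 ^ K + tb + 2 * (ε ^ 2)⁻¹ * (2 ^ K * L ^ 2)) +
      ((1 + L / ε) / ε + 4 * (ε ^ 2)⁻¹ * L) * D) := by
  unfold TV
  refine mul_le_mul_of_nonneg_left ?_ he
  have h1 : (1 + L / ε) / ε * d ≤ (1 + L / ε) / ε * D :=
    mul_le_mul_of_nonneg_left hd (by positivity)
  have h2 : 2 * (ε ^ 2)⁻¹ * g ≤ 2 * (ε ^ 2)⁻¹ * (2 ^ K * L ^ 2 + 2 * L * D) :=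
    mul_le_mul_of_nonneg_left hg (by positivity)
  linarith

/-- **The sum over the fibres and the roots.** -/
theorem tnum {ζ : Type*} (Z : Finset ζ) (B2 B3 : ζ → Finset ℤ) {N : ℝ} (hN : 0 ≤ N)
    (hB2 : ∀ z ∈ Z, ((B2 z).card : ℝ) ≤ N) (hB3 : ∀ z ∈ Z, ((B3 z).card : ℝ) ≤ N)
    {κ ε e2 e3 e L2 L3 L : ℝ} (hκ : 0 ≤ κ) (hε : 0 < ε) (he2 : 0 ≤ e2) (he3 : 0 ≤ e3)
    (h2e : e2 ≤ e) (h3e : e3 ≤ e) (hL2 : 0 ≤ L2) (hL3 : 0 ≤ L3) (h2L : L2 ≤ L) (h3L : L3 ≤ L)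
    {K : ℕ} {tb Dt : ℝ} (htb : 0 ≤ tb) (G : ζ → ℤ → ℤ → ℝ)
    (l2 t2 d2 g2 D2 l3 t3 d3 g3 D3 : ζ → ℤ → ℝ)
    (hG : ∀ z ∈ Z, ∀ b2 ∈ B2 z, ∀ b3 ∈ B3 z, G z b2 b3 ≤
      κ * (√(TV ε e2 L2 (l2 z b2) (t2 z b2) (d2 z b2) (g2 z b2)) *
        √(TV ε e3 L3 (l3 z b3) (t3 z b3) (d3 z b3) (g3 z b3))))
    (h2 : ∀ z ∈ Z, ∀ b ∈ B2 z, l2 z b ≤ 2 ^ K ∧ t2 z b ≤ tb ∧ d2 z b ≤ D2 z b ∧
      g2 z b ≤ 2 ^ K * L2 ^ 2 + 2 * L2 * D2 z b)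
    (h3 : ∀ z ∈ Z, ∀ b ∈ B3 z, l3 z b ≤ 2 ^ K ∧ t3 z b ≤ tb ∧ d3 z b ≤ D3 z b ∧
      g3 z b ≤ 2 ^ K * L3 ^ 2 + 2 * L3 * D3 z b)
    (hp2 : ∀ z ∈ Z, ∀ b ∈ B2 z, 0 ≤ D2 z b) (hp3 : ∀ z ∈ Z, ∀ b ∈ B3 z, 0 ≤ D3 z b)
    (hD2 : ∑ z ∈ Z, ∑ b ∈ B2 z, D2 z b ≤ Dt) (hD3 : ∑ z ∈ Z, ∑ b ∈ B3 z, D3 z b ≤ Dt) :
    ∑ z ∈ Z, ∑ b2 ∈ B2 z, ∑ b3 ∈ B3 z, G z b2 b3 ≤
      κ * N * e * (N * Z.card * (2 ^ K + tb + 2 * (ε ^ 2)⁻¹ * (2 ^ K * L ^ 2)) +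
        ((1 + L / ε) / ε + 4 * (ε ^ 2)⁻¹ * L) * Dt) := by
  have he : 0 ≤ e := he2.trans h2e
  have hL : 0 ≤ L := hL2.trans h2L
  set a : ℝ := 2 ^ K + tb + 2 * (ε ^ 2)⁻¹ * (2 ^ K * L ^ 2) with ha
  set c : ℝ := (1 + L / ε) / ε + 4 * (ε ^ 2)⁻¹ * L with hc
  have ha0 : 0 ≤ a := by positivity
  have hc0 : 0 ≤ c := by positivity
  -- one variable
  have one : ∀ {e' L' l t d g D : ℝ}, 0 ≤ e' → e' ≤ e → 0 ≤ L' → L' ≤ L → 0 ≤ D →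
      l ≤ 2 ^ K → t ≤ tb → d ≤ D → g ≤ 2 ^ K * L' ^ 2 + 2 * L' * D →
      TV ε e' L' l t d g ≤ e * (a + c * D) := by
    intro e' L' l t d g D he' hee hL' hLL hD hl ht hd hg
    refine (TV_le hε he' hL' hl ht hd hg).trans ?_
    have h1 : 2 ^ K + tb + 2 * (ε ^ 2)⁻¹ * (2 ^ K * L' ^ 2) ≤ a := by
      rw [ha]; gcongr
    have h2 : ((1 + L' / ε) / ε + 4 * (ε ^ 2)⁻¹ * L') * D ≤ c * D := by
      rw [hc]; gcongr
    exact mul_le_mul hee (add_le_add h1 h2) (by positivity) he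
  -- one pair of roots
  have pair : ∀ z ∈ Z, ∀ b2 ∈ B2 z, ∀ b3 ∈ B3 z, G z b2 b3 ≤
      κ * (e / 2) * ((a + c * D2 z b2) + (a + c * D3 z b3)) := by
    intro z hz b2 hb2 b3 hb3
    refine (hG z hz b2 hb2 b3 hb3).trans ?_
    obtain ⟨p1, p2, p3, p4⟩ := h2 z hz b2 hb2
    obtain ⟨q1, q2, q3, q4⟩ := h3 z hz b3 hb3
    have t2' := one he2 h2e hL2 h2L (hp2 z hz b2 hb2) p1 p2 p3 p4
    have t3' := one he3 h3e hL3 h3L (hp3 z hz b3 hb3) q1 q2 q3 q4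
    set A := √(TV ε e2 L2 (l2 z b2) (t2 z b2) (d2 z b2) (g2 z b2)) with hA
    set B := √(TV ε e3 L3 (l3 z b3) (t3 z b3) (d3 z b3) (g3 z b3)) with hB
    have hA2 : A ^ 2 ≤ e * (a + c * D2 z b2) := by
      rcases le_total 0 (TV ε e2 L2 (l2 z b2) (t2 z b2) (d2 z b2) (g2 z b2)) with h | h
      · rw [hA, Real.sq_sqrt h]; exact t2'
      · rw [hA, Real.sqrt_eq_zero_of_nonpos h, zero_pow two_ne_zero]
        have := hp2 z hz b2 hb2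
        positivity
    have hB2 : B ^ 2 ≤ e * (a + c * D3 z b3) := by
      rcases le_total 0 (TV ε e3 L3 (l3 z b3) (t3 z b3) (d3 z b3) (g3 z b3)) with h | h
      · rw [hB, Real.sq_sqrt h]; exact t3'
      · rw [hB, Real.sqrt_eq_zero_of_nonpos h, zero_pow two_ne_zero]
        have := hp3 z hz b3 hb3
        positivity
    have h5 : A * B ≤ e / 2 * ((a + c * D2 z b2) + (a + c * D3 z b3)) := by
      nlinarith [sq_nonneg (A - B)]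
    calc κ * (A * B) ≤ κ * (e / 2 * ((a + c * D2 z b2) + (a + c * D3 z b3))) :=
          mul_le_mul_of_nonneg_left h5 hκ
      _ = _ := by ring
  -- one fibre
  have fib : ∀ z ∈ Z, ∑ b2 ∈ B2 z, ∑ b3 ∈ B3 z, G z b2 b3 ≤
      κ * (e / 2) * (2 * (N * N * a) + c * (N * ∑ b ∈ B2 z, D2 z b) +
        c * (N * ∑ b ∈ B3 z, D3 z b)) := by
    intro z hz
    refine (sum_le_sum fun b2 hb2 => sum_le_sum fun b3 hb3 =>
      pair z hz b2 hb2 b3 hb3).trans ?_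
    have n2 := hB2 z hz
    have n3 := hB3 z hz
    have c2 : (0 : ℝ) ≤ (B2 z).card := by positivity
    have c3 : (0 : ℝ) ≤ (B3 z).card := by positivity
    have s2 : 0 ≤ ∑ b ∈ B2 z, D2 z b := sum_nonneg (hp2 z hz)
    have s3 : 0 ≤ ∑ b ∈ B3 z, D3 z b := sum_nonneg (hp3 z hz)
    have e1 : ∑ b2 ∈ B2 z, ∑ b3 ∈ B3 z,
        κ * (e / 2) * ((a + c * D2 z b2) + (a + c * D3 z b3)) =
        κ * (e / 2) * (2 * ((B2 z).card * (B3 z).card * a) +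
          c * ((B3 z).card * ∑ b ∈ B2 z, D2 z b) + c * ((B2 z).card * ∑ b ∈ B3 z, D3 z b)) := by
      have i1 : ∀ b2, ∑ b3 ∈ B3 z, κ * (e / 2) * ((a + c * D2 z b2) + (a + c * D3 z b3)) =
          κ * (e / 2) * ((B3 z).card * (a + c * D2 z b2) +
            ((B3 z).card * a + c * ∑ b ∈ B3 z, D3 z b)) := by
        intro b2
        rw [← mul_sum, sum_add_distrib, sum_const, nsmul_eq_mul, sum_add_distrib, sum_const,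
          nsmul_eq_mul, ← mul_sum]
      rw [sum_congr rfl fun b2 _ => i1 b2, ← mul_sum, sum_add_distrib, sum_const, nsmul_eq_mul,
        ← mul_sum, sum_add_distrib, sum_const, nsmul_eq_mul, ← mul_sum]
      ring
    rw [e1]
    refine mul_le_mul_of_nonneg_left ?_ (by positivity)
    gcongr
  refine (sum_le_sum fib).trans ?_
  rw [← mul_sum, sum_add_distrib, sum_add_distrib, sum_const, nsmul_eq_mul, ← mul_sum, ← mul_sum,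
    ← mul_sum, ← mul_sum]
  have k0 : 0 ≤ κ * (e / 2) := by positivity
  have h5 : (Z.card : ℝ) * (2 * (N * N * a)) + c * (N * ∑ z ∈ Z, ∑ b ∈ B2 z, D2 z b) +
      c * (N * ∑ z ∈ Z, ∑ b ∈ B3 z, D3 z b) ≤
      Z.card * (2 * (N * N * a)) + c * (N * Dt) + c * (N * Dt) := by
    gcongr
  refine (mul_le_mul_of_nonneg_left h5 k0).trans (le_of_eq ?_)
  ring

end

end Vale.Agent.P141.H935
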